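import Vale.Agent.P267.H661.XT
import Vale.Agent.P267.H158.B1

/-! The covering data for `Cov hh` (package GAUD-XT of P267). -/

open scoped Manifold ContDiff ComplexOrder Topology NNReal ComplexConjugate
open Filter Set Metric

set_option maxSynthPendingDepth 3
set_option linter.unusedSectionVars false

noncomputable section

namespace Vale.Agent.P267.H661

open Vale.Agent.P267.FL Vale.Agent.P272.K.LIN Vale.Agent.P267.XT Vale.Agent.P267.H158

section
variable {Y : Type*} [TopologicalSpace Y] [ChartedSpace C2 Y] [IsManifold 𝓘(ℝ, C2) ∞ Y]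

theorem ck_of_contMDiff {u : Y → ℝ} (hu : ContMDiff 𝓘(ℝ, C2) 𝓘(ℝ, ℝ) ∞ u) : CkFn C2 ∞ u := by
  intro e he x hx
  rw [← contMDiffAt_iff_contDiffAt]
  have h1 : ContMDiffAt 𝓘(ℝ, C2) 𝓘(ℝ, C2) ∞ e.symm (e x) :=
    (contMDiffOn_symm_of_mem_maximalAtlas (IsManifold.subset_maximalAtlas he)).contMDiffAt
      (e.open_target.mem_nhds (e.map_source hx))
  exact ContMDiffAt.comp (e x) (g := u) (hu _) h1

theorem contMDiff_of_ck {u : Y → ℝ} (hu : CkFn C2 ∞ u) : ContMDiff 𝓘(ℝ, C2) 𝓘(ℝ, ℝ) ∞ u := by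
  intro x
  set e := chartAt C2 x
  have h1 : ContMDiffAt 𝓘(ℝ, C2) 𝓘(ℝ, C2) ∞ e x :=
    (contMDiffOn_of_mem_maximalAtlas (IsManifold.subset_maximalAtlas (chart_mem_atlas C2 x))).contMDiffAt
      (e.open_source.mem_nhds (mem_chart_source C2 x))
  have h2 : ContMDiffAt 𝓘(ℝ, C2) 𝓘(ℝ, ℝ) ∞ (fun z => u (e.symm z)) (e x) := by
    rw [contMDiffAt_iff_contDiffAt]
    exact hu e (chart_mem_atlas C2 x) x (mem_chart_source C2 x)
  have h3 : ContMDiffAt 𝓘(ℝ, C2) 𝓘(ℝ, ℝ) ∞ (fun z => u (e.symm (e z))) x :=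
    ContMDiffAt.comp x (g := fun z => u (e.symm z)) h2 h1
  refine h3.congr_of_eventuallyEq ?_
  filter_upwards [e.open_source.mem_nhds (mem_chart_source C2 x)] with z hz
  rw [e.left_inv hz]

end

variable {X : Type} [TopologicalSpace X] [ChartedSpace C2 X] [IsManifold 𝓘(ℂ, C2) ω X]
  [CompactSpace X]

omit [IsManifold 𝓘(ℂ, C2) ω X] [CompactSpace X] in
theorem chartMap_p (hh : C(X, UnitAddCircle)) : ChartMap (Cov.p : Cov hh → X) := by
  refine ⟨Cov.continuous_p, fun y => Eventually.of_forall fun z => ?_⟩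
  show chartAt C2 (Cov.p y) (Cov.p z) = chartAt C2 y z
  rw [Cov.chartAt_coe]
  rfl

/-- the covering data of `Cov hh` -/
def covQ (hh : C(X, UnitAddCircle)) {θ : CovF C2 X} (hθ : IsDiffC hh θ) :
    QData (Cov.p : Cov hh → X) where
  cm := chartMap_p hh
  surj := Cov.surjective_p
  γ := Cov.γ
  q_γ x := rfl
  fib x y hxy := by
    obtain ⟨k, hk⟩ := Cov.p_eq_iff.1 hxy
    refine ⟨k, ?_⟩
    rw [hk]
    have key : ∀ k : ℤ, ∀ x : Cov hh, Cov.shift k x = (Cov.γ ^ k) x := by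
      intro k
      induction k with
      | zero => intro x; simp
      | succ n ih =>
        intro x
        rw [zpow_add_one, Homeomorph.mul_apply, ← ih, Cov.shift_add]
        rfl
      | pred n ih =>
        intro x
        rw [zpow_sub_one, Homeomorph.mul_apply, ← ih, sub_eq_add_neg, Cov.shift_add]
        congr 1
        have h1 : (Cov.γ⁻¹ : Cov hh ≃ₜ Cov hh) x = (Cov.shift 1).symm x := rfl
        rw [h1, Cov.shift_symm]
    exact key k x
  F := Cov.f
  smooth := by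
    have : IsManifold 𝓘(ℝ, C2) ∞ X := isManifold_real
    exact reg0_iff.2 (cx_ck (ck_of_contMDiff (Cov.contMDiff_f hθ)))
  F_γ := Cov.f_γ
  proper a b := Cov.isCompact_preimage_f isCompact_Icc

end Vale.Agent.P267.H661
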