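import Vale.Agent.P267.H661.XT
import Vale.Agent.P267.H469.Del2
import Vale.Agent.P267.H857.Alg

/-! The closed one-form `dF` on `X` (package GAUD-XT of P267). -/

open scoped Manifold ContDiff ComplexOrder Topology NNReal ComplexConjugate
open Filter Set Metric

set_option maxSynthPendingDepth 3
set_option linter.unusedSectionVars false

noncomputable section

namespace Vale.Agent.P267.H661

open Vale.Agent.P267.FL Vale.Agent.P272.K.LIN Vale.Agent.P267.XT

section const
variable {M : Type*} [TopologicalSpace M] [ChartedSpace C2 M] [IsManifold 𝓘(ℂ, C2) ω M]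

/-- a function with vanishing differential is locally constant -/
theorem eventually_eq_of_dF0 {s : M → ℂ} (hs : Reg0 ∞ 0 s) (h1 : ∀ x, del0 s x = 0)
    (h2 : ∀ x, dbar0 0 s x = 0) (x : M) : ∀ᶠ y in 𝓝 x, s y = s x := by
  set e := chartAt C2 x with he
  have hm := chart_mem_atlas C2 x
  have hck := reg0_iff.1 hs
  obtain ⟨r, hr, hsub⟩ := Metric.isOpen_iff.1 e.open_target (e x) (mem_chart_target C2 x)
  have hderiv : ∀ z ∈ ball (e x) r, fderiv ℝ (fun z => s (e.symm z)) z = 0 := by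
    intro z hz
    have hzt := hsub hz
    ext v
    rw [fderiv_eq_wirt]
    have k1 : ∀ i, dz i (fun z => s (e.symm z)) z = 0 := by
      intro i
      rw [← H469.del0_law (H469.r0mono hs H469.one_le_infty) hm hzt i]
      simp [loc10, h1]
    have k2 : ∀ i, dzb i (fun z => s (e.symm z)) z = 0 := by
      intro i
      rw [← loc1_dbar0 hm hzt (hck.of_le H469.one_le_infty) i]
      simp [loc1, h2]
    simp [k1, k2]
  have hdiff : DifferentiableOn ℝ (fun z => s (e.symm z)) (ball (e x) r) := fun z hz =>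
    ((hck.at_target hm (hsub hz)).differentiableAt (by simp)).differentiableWithinAt
  have key : ∀ z ∈ ball (e x) r, s (e.symm z) = s x := by
    intro z hz
    have := (convex_ball (e x) r).is_const_of_fderivWithin_eq_zero (𝕜 := ℝ) hdiff (fun w hw => by
      rw [fderivWithin_of_isOpen isOpen_ball hw]; exact hderiv w hw) hz (mem_ball_self hr)
    rw [this, e.left_inv (mem_chart_source C2 x)]
  have hcont : ∀ᶠ y in 𝓝 x, e y ∈ ball (e x) r :=
    (e.continuousAt (mem_chart_source C2 x)).eventually (isOpen_ball.mem_nhds (mem_ball_self hr))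
  filter_upwards [hcont, e.open_source.mem_nhds (mem_chart_source C2 x)] with y hy hys
  have := key (e y) hy
  rwa [e.left_inv hys] at this

/-- on a connected manifold -/
theorem eq_of_dF0 [PreconnectedSpace M] {s : M → ℂ} (hs : Reg0 ∞ 0 s) (h1 : ∀ x, del0 s x = 0)
    (h2 : ∀ x, dbar0 0 s x = 0) (x y : M) : s x = s y := by
  have hl : IsLocallyConstant s :=
    (IsLocallyConstant.iff_eventually_eq s).2 (eventually_eq_of_dF0 hs h1 h2)
  exact hl.apply_eq_of_isPreconnected isPreconnected_univ (mem_univ x) (mem_univ y)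

theorem del0_sub {s t : M → ℂ} (hs : Reg0 ∞ 0 s) (ht : Reg0 ∞ 0 t) (x : M) :
    del0 (fun y => s y - t y) x = del0 s x - del0 t x := by
  funext i
  have h1 := (reg0_iff.1 hs _ (chart_mem_atlas C2 x) x (mem_chart_source C2 x))
  have h2 := (reg0_iff.1 ht _ (chart_mem_atlas C2 x) x (mem_chart_source C2 x))
  exact dz_sub (h1.differentiableAt (by simp)) (h2.differentiableAt (by simp)) i

theorem dbar0_sub {s t : M → ℂ} (hs : Reg0 ∞ 0 s) (ht : Reg0 ∞ 0 t) (x : M) :
    dbar0 0 (fun y => s y - t y) x = dbar0 0 s x - dbar0 0 t x := by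
  funext i
  have h1 := (reg0_iff.1 hs _ (chart_mem_atlas C2 x) x (mem_chart_source C2 x))
  have h2 := (reg0_iff.1 ht _ (chart_mem_atlas C2 x) x (mem_chart_source C2 x))
  simp only [dbar0, loc0_zero', Pi.sub_apply]
  exact dzb_sub (h1.differentiableAt (by simp)) (h2.differentiableAt (by simp)) i

end const

theorem reg10_iff_cj {Z : Type*} [TopologicalSpace Z] [ChartedSpace C2 Z]
    [IsManifold 𝓘(ℂ, C2) ω Z] {c : Z → Fin 2 → ℂ} : Reg10 ∞ c ↔ Reg1 ∞ 0 (H469.cj1 c) := by
  refine ⟨fun h => H469.r10cj h, fun h => ?_⟩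
  have := H469.r1cj h
  rwa [H469.cj1_cj1] at this

theorem reg10_comp_iff {Y X : Type*} [TopologicalSpace Y] [ChartedSpace C2 Y] [TopologicalSpace X]
    [ChartedSpace C2 X] [IsManifold 𝓘(ℂ, C2) ω X] [IsManifold 𝓘(ℂ, C2) ω Y] {g : Y → X}
    (hg : ChartMap g) (hs : Function.Surjective g) {c : X → Fin 2 → ℂ} :
    Reg10 ∞ (fun y => c (g y)) ↔ Reg10 ∞ c := by
  refine ⟨fun h => reg10_iff_cj.2 ((hg.reg1_comp_iff (a := H469.cj1 c) hs).1 ?_),
    fun h => reg10_iff_cj.2 ?_⟩
  · exact H469.r10cj h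
  · exact (hg.reg1_comp_iff (a := H469.cj1 c) hs).2 (H469.r10cj h)

namespace QData

variable {M X : Type} [TopologicalSpace M] [ChartedSpace C2 M] [TopologicalSpace X]
    [ChartedSpace C2 X] {q : M → X} (Q : QData q)

/-- the form `dF` on `X` -/
def theta : OneF X :=
  ⟨fun x => del0 (cx Q.F) (Function.surjInv Q.surj x),
    fun x => dbar0 0 (cx Q.F) (Function.surjInv Q.surj x)⟩

variable [IsManifold 𝓘(ℂ, C2) ω X] [IsManifold 𝓘(ℂ, C2) ω M]

theorem reg_cxF : Reg0 ∞ 0 (cx Q.F) := Q.smooth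

theorem cxF_γ : (fun y => cx Q.F (Q.γ y)) = fun y => cx Q.F y - (-1) := by
  funext y
  simp only [cx, Q.F_γ]
  push_cast
  ring

theorem reg_const (c : ℂ) : Reg0 ∞ 0 (fun _ : M => c) := reg0_iff.2 (ckFn_const c)

theorem del0_const (c : ℂ) (x : M) : del0 (fun _ : M => c) x = 0 := by
  funext i
  simp [del0]

theorem dbar0_const (c : ℂ) (x : M) : dbar0 0 (fun _ : M => c) x = 0 := by
  funext i
  simp [dbar0, loc0_zero']

theorem theta_f10 (y : M) : Q.theta.f10 (q y) = del0 (cx Q.F) y := by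
  refine (Q.invariant (T := fun y => del0 (cx Q.F) y) (fun x => ?_)
    (Function.surjInv_eq Q.surj (q y)))
  have h1 := Q.chartMap_γ.del0_comp (cx Q.F) x
  rw [← h1, Q.cxF_γ, del0_sub Q.reg_cxF (reg_const _), del0_const, sub_zero]

theorem theta_f01 (y : M) : Q.theta.f01 (q y) = dbar0 0 (cx Q.F) y := by
  refine (Q.invariant (T := fun y => dbar0 0 (cx Q.F) y) (fun x => ?_)
    (Function.surjInv_eq Q.surj (q y)))
  have h1 := Q.chartMap_γ.dbar0_comp 0 (cx Q.F) x
  rw [← h1, Q.cxF_γ, dbar0_sub Q.reg_cxF (reg_const _), dbar0_const, sub_zero]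

theorem theta_smooth : Q.theta.Smooth where
  s10 := by
    rw [← reg10_comp_iff Q.cm Q.surj]
    have : (fun y => Q.theta.f10 (q y)) = del0 (cx Q.F) := funext Q.theta_f10
    rw [this]
    exact H469.reg_del0 Q.reg_cxF
  s01 := by
    rw [← Q.cm.reg1_comp_iff Q.surj]
    have : (fun y => Q.theta.f01 (q y)) = dbar0 0 (cx Q.F) := funext Q.theta_f01
    rw [this]
    exact H469.reg_dbar0 Q.reg_cxF

theorem theta_closed : Q.theta.d = 0 := by
  have h10 : (fun y => Q.theta.f10 (q y)) = del0 (cx Q.F) := funext Q.theta_f10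
  have h01 : (fun y => Q.theta.f01 (q y)) = dbar0 0 (cx Q.F) := funext Q.theta_f01
  ext1
  · funext x
    obtain ⟨y, rfl⟩ := Q.surj x
    show del10 Q.theta.f10 (q y) = 0
    rw [← Q.cm.del10_comp, h10, H469.del10_del0 Q.reg_cxF]
    rfl
  · funext x
    obtain ⟨y, rfl⟩ := Q.surj x
    show (del1 Q.theta.f01 + dbar10 Q.theta.f10) (q y) = 0
    rw [Pi.add_apply, ← Q.cm.del1_comp, ← Q.cm.dbar10_comp, h10, h01, ← Pi.add_apply,
      H469.del1_dbar0 Q.reg_cxF]
    rfl
  · funext x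
    obtain ⟨y, rfl⟩ := Q.surj x
    show dbar1 0 Q.theta.f01 (q y) = 0
    rw [← Q.cm.dbar1_comp, h01, H469.dbar1_dbar0 Q.reg_cxF]
    rfl

theorem theta_real : Q.theta.Real := by
  intro x i
  obtain ⟨y, rfl⟩ := Q.surj x
  rw [Q.theta_f10, Q.theta_f01]
  have h1 := H469.del0_cj (cx Q.F)
  have h2 : H469.cj0 (cx Q.F) = cx Q.F := by
    funext y; simp [H469.cj0, cx]
  rw [h2] at h1
  rw [h1]
  rfl

theorem theta_not_exact [PreconnectedSpace M] [Nonempty M] {s : X → ℂ} (hs : Reg0 ∞ 0 s) :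
    Q.theta ≠ dF0 s := by
  intro h
  have h10 : ∀ y, del0 (fun y => cx Q.F y - s (q y)) y = 0 := by
    intro y
    rw [del0_sub Q.reg_cxF (Q.cm.reg0_comp hs), Q.cm.del0_comp, ← Q.theta_f10, h]
    exact sub_self _
  have h01 : ∀ y, dbar0 0 (fun y => cx Q.F y - s (q y)) y = 0 := by
    intro y
    rw [dbar0_sub Q.reg_cxF (Q.cm.reg0_comp hs), Q.cm.dbar0_comp, ← Q.theta_f01, h]
    exact sub_self _
  have hreg : Reg0 ∞ 0 (fun y => cx Q.F y - s (q y)) := reg0_iff.2
    ((reg0_iff.1 Q.reg_cxF).sub (reg0_iff.1 (Q.cm.reg0_comp hs)))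
  obtain ⟨x⟩ := ‹Nonempty M›
  have h1 := eq_of_dF0 hreg h10 h01 (Q.γ x) x
  have h2 : cx Q.F (Q.γ x) = cx Q.F x - (-1) := congrFun Q.cxF_γ x
  rw [h2, Q.q_γ] at h1
  have h3 : (1 : ℂ) = 0 := by linear_combination h1
  exact one_ne_zero h3

end QData

end Vale.Agent.P267.H661
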