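import Vale.Agent.P267.H469.CalcInst
import Vale.Agent.P267.H661.GaudOf
import Vale.Agent.P267.H661.Theta

/-! The constant `tr ∂∂̄f` is not zero if `b_1 = 1` (package GAUD-XT of P267). -/

open scoped Manifold ContDiff ComplexOrder Topology NNReal ComplexConjugate
open Filter Set Metric

set_option maxSynthPendingDepth 3
set_option linter.unusedSectionVars false

noncomputable section

namespace Vale.Agent.P267.H661

open Vale.Agent.P267.FL Vale.Agent.P272.K.LIN Vale.Agent.P267.XT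
open Vale.Agent.P267.H469 (S0 S10 S01 Om1 Om2 Om3 calcX C0L C1L D0 D1 P01 trL one0)

namespace QData

variable {M X : Type} [TopologicalSpace M] [ChartedSpace C2 M] [TopologicalSpace X]
    [ChartedSpace C2 X] {q : M → X} (Q : QData q) [IsManifold 𝓘(ℂ, C2) ω X]
    [IsManifold 𝓘(ℂ, C2) ω M]

/-- the form `dF` as an element of `Om1 X` -/
def thetaOm : Om1 X := (⟨Q.theta.f10, Q.theta_smooth.s10⟩, ⟨Q.theta.f01, Q.theta_smooth.s01⟩)

theorem D1_thetaOm : D1 Q.thetaOm = 0 := by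
  have h := Q.theta_closed
  refine Prod.ext (Subtype.ext ?_) (Prod.ext (Subtype.ext ?_) (Subtype.ext ?_))
  · exact congrArg TwoF.f20 h
  · exact congrArg TwoF.f11 h
  · exact congrArg TwoF.f02 h

theorem C1L_thetaOm : C1L Q.thetaOm = Q.thetaOm := by
  have h := Q.theta_real
  refine Prod.ext (Subtype.ext ?_) (Subtype.ext ?_)
  · funext x i
    show conj (Q.theta.f01 x i) = Q.theta.f10 x i
    rw [h x i]
  · funext x i
    show conj (Q.theta.f10 x i) = Q.theta.f01 x i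
    rw [h x i, Complex.conj_conj]

theorem thetaOm_ne [PreconnectedSpace M] [Nonempty M] (u : S0 X) : Q.thetaOm ≠ D0 u := by
  intro h
  refine Q.theta_not_exact u.2 ?_
  ext1
  · exact congrArg (fun A : Om1 X => (A.1 : X → Fin 2 → ℂ)) h
  · exact congrArg (fun A : Om1 X => (A.2 : X → Fin 2 → ℂ)) h

variable {h : X → Matrix (Fin 2) (Fin 2) ℂ} {hh : IsHerm h}

/-- evaluation of `tr ∂(dF - du)^{0,1}` -/
theorem tr_thetaOm (u : X → ℝ) (hu : CkFn C2 ∞ u) (y : M) :
    trh (fun y => h (q y)) (ddb (cx fun y => Q.F y - u (q y))) y =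
      trh h (del1 (Q.theta.f01 - dbar0 0 (cx u))) (q y) := by
  have h1 : (cx fun y => Q.F y - u (q y)) = fun y => cx Q.F y - cx u (q y) := by
    funext y; simp [cx]
  have hu0 : Reg0 ∞ 0 (cx u) := reg0_iff.2 (cx_ck hu)
  have h2 : dbar0 0 (cx fun y => Q.F y - u (q y)) = fun y =>
      (Q.theta.f01 - dbar0 0 (cx u)) (q y) := by
    rw [h1]
    funext y
    rw [dbar0_sub Q.reg_cxF (Q.cm.reg0_comp hu0), Q.cm.dbar0_comp, ← Q.theta_f01]
    rfl
  have h3 : ddb (cx fun y => Q.F y - u (q y)) y =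
      del1 (Q.theta.f01 - dbar0 0 (cx u)) (q y) := by
    unfold ddb
    rw [h2]
    exact Q.cm.del1_comp _ y
  simp only [trh]
  rw [h3]

/-- **`XTData` on the covering with `c ≠ 0`** if `dF` generates `H¹`. -/
theorem exists_xt_of_scal [CompactSpace X] [T2Space X] [Nonempty X] [PreconnectedSpace M]
    [Nonempty M] {hconst : ∀ s : X → ℂ, Reg0 ∞ 0 s → ddb s = 0 → ∃ c : ℂ, s = fun _ => c}
    (S : Scal (calcX hh hconst)) (hb : (calcX hh hconst).B1le Q.thetaOm) :
    ∃ D : XTData M, IsXT Q h D := by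
  obtain ⟨A, u, hu, hA, -, hcc⟩ := S.exists_gaud Q.D1_thetaOm Q.C1L_thetaOm Q.thetaOm_ne hb
  -- `u` is real
  have hureal : ∀ x, conj ((u : X → ℂ) x) = (u : X → ℂ) x := fun x =>
    congrFun (congrArg (fun s : S0 X => (s : X → ℂ)) hu) x
  set u' : X → ℝ := reF (u : X → ℂ) with hu'
  have hcx : cx u' = (u : X → ℂ) := by
    funext x
    exact Complex.conj_eq_iff_re.1 (hureal x)
  have hck : CkFn C2 ∞ u' := reF_ck (reg0_iff.1 u.2)
  have hcre : ((A.c.re : ℝ) : ℂ) = A.c := Complex.conj_eq_iff_re.1 hcc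
  have hc0 : A.c.re ≠ 0 := by
    intro h0
    apply A.c_ne
    rw [← hcre, h0, Complex.ofReal_zero]
  refine Q.exists_xt hh hck hc0 fun y => ?_
  rw [Q.tr_thetaOm u' hck y, hcx, hcre]
  have htr := A.tr_eq
  rw [hA] at htr
  have h5 := congrFun (congrArg (fun s : S0 X => (s : X → ℂ)) htr) (q y)
  have h6 : trh h (del1 (Q.theta.f01 - dbar0 0 (u : X → ℂ)) + dbar10 (0 : X → Fin 2 → ℂ)) (q y) =
      A.c * 1 := h5
  have h7 : dbar10 (0 : X → Fin 2 → ℂ) = 0 := by
    have : H469.dbar10L (0 : S10 X) = 0 := map_zero _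
    exact congrArg (fun s : H469.S11 X => (s : X → Matrix (Fin 2) (Fin 2) ℂ)) this
  rw [h7, add_zero, mul_one] at h6
  exact h6

/-- **`XTData` on the covering** if `b_1 = 1`. -/
theorem exists_xt_of_finrank [CompactSpace X] [T2Space X] [Nonempty X] [PreconnectedSpace M]
    [Nonempty M] {hconst : ∀ s : X → ℂ, Reg0 ∞ 0 s → ddb s = 0 → ∃ c : ℂ, s = fun _ => c}
    (S : Scal (calcX hh hconst)) (hb : Module.finrank ℂ (calcX hh hconst).H1 = 1) :
    ∃ D : XTData M, IsXT Q h D :=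
  Q.exists_xt_of_scal S (b1le_of hb Q.D1_thetaOm Q.thetaOm_ne)

end QData

end Vale.Agent.P267.H661
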