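import Vale.Agent.P267.H469.Gaud
import Vale.Agent.P267.H661.XTC
import Vale.Agent.P267.H661.XTCov
import Vale.Agent.P267.H857.Betti2

/-! The data of the infinite cyclic covering from `b_1 = 1` (package GAUD-XT of P267). -/

open scoped Manifold ContDiff ComplexOrder Topology NNReal ComplexConjugate
open Filter Set Metric

set_option maxSynthPendingDepth 3
set_option linter.unusedSectionVars false

noncomputable section

namespace Vale.Agent.P267.H661

open Vale.Agent.P267.FL Vale.Agent.P272.K.LIN Vale.Agent.P267.XT Vale.Agent.P267.H857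
open Vale.Agent.P267.H469 (S0 S10 S01 Om1 Om2 Om3 calcH gaudScal C0L C1L D0 D1 P01 trL one0)

namespace QData

variable {M X : Type} [TopologicalSpace M] [ChartedSpace C2 M] [TopologicalSpace X]
    [ChartedSpace C2 X] {q : M → X} (Q : QData q) [IsManifold 𝓘(ℂ, C2) ω X]
    [IsManifold 𝓘(ℂ, C2) ω M]

theorem theta_mem : Q.theta ∈ Z1F X := mem_Z1F.2 ⟨Q.theta_smooth, Q.theta_closed⟩

theorem theta_not_mem [PreconnectedSpace M] [Nonempty M] : Q.theta ∉ B1F X := by
  intro h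
  obtain ⟨s, hs, h2⟩ := mem_B1F.1 h
  exact Q.theta_not_exact hs h2

/-- `dF` generates `H¹` if `b_1 = 1` -/
theorem exists_eq [PreconnectedSpace M] [Nonempty M] (hb : BettiSucc X 0 1) {A : OneF X}
    (hA : A ∈ Z1F X) : ∃ (t : ℂ) (s : X → ℂ), Reg0 ∞ 0 s ∧ A = t • Q.theta + dF0 s := by
  obtain ⟨e, he, h⟩ := (bettiSucc_zero_iff (X := X) 1).1 hb
  obtain ⟨r, hr, -⟩ := h _ Q.theta_mem
  obtain ⟨t, ht, -⟩ := h _ hA
  simp only [Finset.univ_unique, Fin.default_eq_zero, Finset.sum_singleton] at hr ht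
  have hr0 : r 0 ≠ 0 := by
    intro h0
    rw [h0, zero_smul, sub_zero] at hr
    exact Q.theta_not_mem hr
  have h1 : A - (t 0 / r 0) • Q.theta ∈ B1F X := by
    have h2 := (B1F X).sub_mem ht ((B1F X).smul_mem (t 0 / r 0) hr)
    have h3 : A - t 0 • e 0 - (t 0 / r 0) • (Q.theta - r 0 • e 0) =
        A - (t 0 / r 0) • Q.theta := by
      rw [smul_sub, smul_smul, div_mul_cancel₀ _ hr0]
      abel
    rwa [h3] at h2
  obtain ⟨s, hs, h2⟩ := mem_B1F.1 h1
  exact ⟨t 0 / r 0, s, hs, by rw [← h2]; abel⟩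

theorem b1le [CompactSpace X] [T2Space X] [ConnectedSpace X] {h : X → Matrix (Fin 2) (Fin 2) ℂ}
    (hh : IsHerm h) [PreconnectedSpace M] [Nonempty M] (hb : BettiSucc X 0 1) :
    (calcH hh).B1le Q.thetaOm := by
  intro a ha
  have hA : (⟨a.1, a.2⟩ : OneF X) ∈ Z1F X := by
    refine mem_Z1F.2 ⟨⟨a.1.2, a.2.2⟩, ?_⟩
    have ha' : D1 a = 0 := ha
    ext1
    · exact congrArg (fun F : Om2 X => (F.1 : X → ℂ)) ha'
    · exact congrArg (fun F : Om2 X => (F.2.1 : X → Matrix (Fin 2) (Fin 2) ℂ)) ha'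
    · exact congrArg (fun F : Om2 X => (F.2.2 : X → ℂ)) ha'
  obtain ⟨t, s, hs, h1⟩ := Q.exists_eq hb hA
  refine ⟨t, ⟨s, hs⟩, ?_⟩
  refine Prod.ext (Subtype.ext ?_) (Subtype.ext ?_)
  · exact congrArg OneF.f10 h1
  · exact congrArg OneF.f01 h1

/-- **`XTData` on the infinite cyclic covering** if `b_1 = 1`. -/
theorem exists_xtData [CompactSpace X] [T2Space X] [ConnectedSpace X]
    {h : X → Matrix (Fin 2) (Fin 2) ℂ} (hh : IsHerm h) [PreconnectedSpace M] [Nonempty M]
    (hb : BettiSucc X 0 1) : ∃ D : XTData M, IsXT Q h D :=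
  Q.exists_xt_of_scal (gaudScal hh) (Q.b1le hh hb)

end QData

/-- **`XTData` on `Cov φ`** for a primitive circle valued map `φ` on a compact connected surface
with `b_1 = 1`. -/
theorem exists_xtData_cov {X : Type} [TopologicalSpace X] [ChartedSpace C2 X]
    [IsManifold 𝓘(ℂ, C2) ω X] [CompactSpace X] [T2Space X] [ConnectedSpace X]
    {h : X → Matrix (Fin 2) (Fin 2) ℂ} (hh : IsHerm h) (φ : C(X, UnitAddCircle))
    (hφ : H158.Primitive φ) {θ : H158.CovF C2 X} (hθ : H158.IsDiffC φ θ)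
    (hb : BettiSucc X 0 1) :
    ∃ D : XTData (H158.Cov φ), QData.IsXT (covQ φ hθ) h D := by
  have : LocallyConnectedSpace X := ChartedSpace.locallyConnectedSpace C2 X
  have : ConnectedSpace (H158.Cov φ) := H158.Cov.connectedSpace hφ
  exact (covQ φ hθ).exists_xtData hh hb

end Vale.Agent.P267.H661
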