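import Vale.Agent.P267.H661.Bridge

/-! The Gauduchon functional on complex functions, in the language of `H399/Defs.lean`
(package GAUD of P267). -/

open scoped Manifold ContDiff ComplexOrder Topology NNReal ComplexConjugate
open Filter Set Metric

set_option maxSynthPendingDepth 3
set_option linter.unusedSectionVars false

noncomputable section

namespace Vale.Agent.P267.H661

open Vale.Agent.P267.FL Vale.Agent.P272.K.LIN

section
variable {X : Type*} [TopologicalSpace X] [ChartedSpace C2 X]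

theorem ckFn_two' {V : Type*} [NormedAddCommGroup V] [NormedSpace ℝ V] {u : X → V}
    (hu : CkFn C2 ∞ u) : CkFn C2 2 u := by
  have : ((2 : ℕ∞) : WithTop ℕ∞) ≤ ((⊤ : ℕ∞) : WithTop ℕ∞) := WithTop.coe_le_coe.2 le_top
  exact hu.of_le this

/-- complexification of a real function -/
def cx (u : X → ℝ) : X → ℂ := fun x => (u x : ℂ)

theorem cx_ck {n : WithTop ℕ∞} {u : X → ℝ} (hu : CkFn C2 n u) : CkFn C2 n (cx u) := by
  intro e he x hx
  exact Complex.ofRealCLM.contDiff.contDiffAt.comp _ (hu e he x hx)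

/-- real part -/
def reF (s : X → ℂ) : X → ℝ := fun x => (s x).re
/-- imaginary part -/
def imF (s : X → ℂ) : X → ℝ := fun x => (s x).im

theorem reF_ck {n : WithTop ℕ∞} {s : X → ℂ} (hs : CkFn C2 n s) : CkFn C2 n (reF s) := by
  intro e he x hx
  exact Complex.reCLM.contDiff.contDiffAt.comp _ (hs e he x hx)

theorem imF_ck {n : WithTop ℕ∞} {s : X → ℂ} (hs : CkFn C2 n s) : CkFn C2 n (imF s) := by
  intro e he x hx
  exact Complex.imCLM.contDiff.contDiffAt.comp _ (hs e he x hx)

theorem reF_add_imF (s : X → ℂ) : (fun x => cx (reF s) x + Complex.I * cx (imF s) x) = s := by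
  funext x
  simp only [cx, reF, imF]
  rw [mul_comm]
  exact Complex.re_add_im (s x)

variable [IsManifold 𝓘(ℂ, C2) ω X]

theorem ddb_cx {u : X → ℝ} (hu : CkFn C2 2 u) (x : X) :
    ddb (cx u) x = Vale.Agent.P272.K.cHess (fun y => u ((chartAt C2 x).symm y))
      (chartAt C2 x x) := by
  ext i j
  rw [ddb_eq ((cx_ck hu).of_le (by norm_num))]
  simp only [Vale.Agent.P272.K.cHess, Matrix.of_apply]
  rw [dz_eq]
  congr 1
  funext z
  exact dzb_eq _ _ _

theorem ddb_add {s t : X → ℂ} (hs : CkFn C2 2 s) (ht : CkFn C2 2 t) (x : X) :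
    ddb (fun x => s x + t x) x = ddb s x + ddb t x := by
  ext i j
  rw [Matrix.add_apply, ddb_eq ((hs.add ht).of_le (by norm_num)), ddb_eq (hs.of_le (by norm_num)),
    ddb_eq (ht.of_le (by norm_num))]
  have hc := at_chart x
  have h1 : (dzb j fun y => s ((chartAt C2 x).symm y) + t ((chartAt C2 x).symm y)) =ᶠ[𝓝
      (chartAt C2 x x)] fun z => dzb j (fun y => s ((chartAt C2 x).symm y)) z +
      dzb j (fun y => t ((chartAt C2 x).symm y)) z := by
    filter_upwards [hc.nhds_target] with z hz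
    exact dzb_add ((hs.at_target hc.1 hz).differentiableAt (by simp))
      ((ht.at_target hc.1 hz).differentiableAt (by simp)) j
  rw [dz_congr h1]
  exact dz_add ((contDiffAt_dzb (m := 1) (hs _ hc.1 x hc.2) (by norm_num) j).differentiableAt
    (by simp)) ((contDiffAt_dzb (m := 1) (ht _ hc.1 x hc.2) (by norm_num) j).differentiableAt
    (by simp)) i

theorem ddb_smul {s : X → ℂ} (hs : CkFn C2 2 s) (c : ℂ) (x : X) :
    ddb (fun x => c * s x) x = c • ddb s x := by
  ext i j
  have hcs : CkFn C2 2 fun x => c * s x := fun e he x hx => contDiffAt_const.mul (hs e he x hx)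
  rw [Matrix.smul_apply, ddb_eq (hcs.of_le (by norm_num)), ddb_eq (hs.of_le (by norm_num))]
  have hc := at_chart x
  have h1 : (dzb j fun y => c * s ((chartAt C2 x).symm y)) =ᶠ[𝓝
      (chartAt C2 x x)] fun z => c • dzb j (fun y => s ((chartAt C2 x).symm y)) z := by
    filter_upwards [hc.nhds_target] with z hz
    exact dzb_const_smul c ((hs.at_target hc.1 hz).differentiableAt (by simp)) j
  rw [dz_congr h1]
  exact dz_const_smul c ((contDiffAt_dzb (m := 1) (hs _ hc.1 x hc.2) (by norm_num)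
    j).differentiableAt (by simp)) i

variable {h : X → Matrix (Fin 2) (Fin 2) ℂ} (hh : IsHerm h)

/-- The operator `u ↦ tr_h(∂∂̄u)` -/
def gop : SOp C2 X := opH (isHermitian_loc11 hh)

theorem gop_P {u : X → ℝ} (hu : CkFn C2 2 u) (x : X) :
    (gop hh).P u x = (trh h (ddb (cx u)) x).re := by
  have h1 : (gop hh).P u x = Pw (fun (e : Ch X) z => loc11 e h z) u x := rfl
  rw [h1, trh, ddb_cx hu]
  unfold Pw
  simp only [loc11_chartAt]

theorem trh_conj {g : Matrix (Fin 2) (Fin 2) ℂ} {m : Matrix (Fin 2) (Fin 2) ℂ} (hm : m.PosDef)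
    (hg : g.IsHermitian) : (m⁻¹ * g).trace.im = 0 := by
  have h1 : (m⁻¹ * g).conjTranspose = g * m⁻¹ := by
    rw [Matrix.conjTranspose_mul, hg.eq, Matrix.conjTranspose_nonsing_inv, hm.1.eq]
  have h2 : conj (m⁻¹ * g).trace = (m⁻¹ * g).trace := by
    have := Matrix.trace_conjTranspose (m⁻¹ * g)
    rw [h1, Matrix.trace_mul_comm] at this
    exact this.symm
  exact Complex.conj_eq_iff_im.1 h2

theorem ddb_isHermitian {u : X → ℝ} (hu : CkFn C2 2 u) (x : X) :
    (ddb (cx u) x).IsHermitian := by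
  rw [ddb_cx hu, Vale.Agent.P272.K.N.cHess_eq_lev]
  · refine Vale.Agent.P272.K.N.lev_isHermitian fun v w => ?_
    have h2 : ContDiffAt ℝ 2 (fun y => u ((chartAt C2 x).symm y)) (chartAt C2 x x) :=
      hu _ (chart_mem_atlas _ x) x (mem_chart_source _ x)
    exact (h2.isSymmSndFDerivAt (by simp)).eq v w
  · exact Vale.Agent.P272.K.N.diffble2 (hu _ (chart_mem_atlas _ x) x (mem_chart_source _ x))

theorem trh_cx {u : X → ℝ} (hu : CkFn C2 2 u) (x : X) :
    trh h (ddb (cx u)) x = ((gop hh).P u x : ℂ) := by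
  apply Complex.ext
  · rw [Complex.ofReal_re, gop_P hh hu]
  · rw [Complex.ofReal_im]
    exact trh_conj (hh.posDef x) (ddb_isHermitian hu x)

theorem trh_eq {s : X → ℂ} (hs : CkFn C2 2 s) (x : X) :
    trh h (ddb s) x = ((gop hh).P (reF s) x : ℂ) + Complex.I * ((gop hh).P (imF s) x : ℂ) := by
  have hI : CkFn C2 2 fun x => Complex.I * cx (imF s) x := fun e he x hx =>
    contDiffAt_const.mul (cx_ck (imF_ck hs) e he x hx)
  have h1 : ddb s x = ddb (cx (reF s)) x + Complex.I • ddb (cx (imF s)) x := by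
    conv_lhs => rw [← reF_add_imF s]
    rw [ddb_add (cx_ck (reF_ck hs)) hI, ddb_smul (cx_ck (imF_ck hs))]
  rw [← trh_cx hh (reF_ck hs), ← trh_cx hh (imF_ck hs)]
  simp only [trh, h1, Matrix.mul_add, Matrix.trace_add, Matrix.mul_smul, Matrix.trace_smul,
    smul_eq_mul]

variable [CompactSpace X] [T2Space X] [ConnectedSpace X]

/-- **The Gauduchon functional** on complex valued functions. -/
def gfun (s : X → ℂ) : ℂ := ((gop hh).c (reF s) : ℂ) + Complex.I * ((gop hh).c (imF s) : ℂ)

theorem gfun_cx {u : X → ℝ} : gfun hh (cx u) = ((gop hh).c u : ℂ) := by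
  have h1 : reF (cx u) = u := rfl
  have h2 : imF (cx u) = fun _ => 0 := rfl
  rw [gfun, h1, h2, (gop hh).c_zero]
  simp

theorem gfun_const (c : ℂ) : gfun hh (fun _ : X => c) = c := by
  have h1 : reF (fun _ : X => c) = fun _ => c.re := rfl
  have h2 : imF (fun _ : X => c) = fun _ => c.im := rfl
  rw [gfun, h1, h2, (gop hh).c_const, (gop hh).c_const, mul_comm]
  exact Complex.re_add_im c

theorem gfun_add {s t : X → ℂ} (hs : CkFn C2 ∞ s) (ht : CkFn C2 ∞ t) :
    gfun hh (fun x => s x + t x) = gfun hh s + gfun hh t := by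
  have h1 : reF (fun x => s x + t x) = fun x => reF s x + reF t x := rfl
  have h2 : imF (fun x => s x + t x) = fun x => imF s x + imF t x := rfl
  rw [gfun, h1, h2, (gop hh).c_add (reF_ck hs) (reF_ck ht), (gop hh).c_add (imF_ck hs) (imF_ck ht),
    gfun, gfun]
  push_cast
  ring

theorem gfun_smul {s : X → ℂ} (hs : CkFn C2 ∞ s) (c : ℂ) :
    gfun hh (fun x => c * s x) = c * gfun hh s := by
  have h1 : reF (fun x => c * s x) = fun x => c.re * reF s x - c.im * imF s x := rfl
  have h2 : imF (fun x => c * s x) = fun x => c.re * imF s x + c.im * reF s x := rfl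
  have k1 := (ckFn_const (E := C2) (X := X) (k := ∞) c.re).mul (reF_ck hs)
  have k2 := (ckFn_const (E := C2) (X := X) (k := ∞) c.im).mul (imF_ck hs)
  have k3 := (ckFn_const (E := C2) (X := X) (k := ∞) c.re).mul (imF_ck hs)
  have k4 := (ckFn_const (E := C2) (X := X) (k := ∞) c.im).mul (reF_ck hs)
  rw [gfun, h1, h2, (gop hh).c_sub k1 k2, (gop hh).c_add k3 k4, (gop hh).c_smul (reF_ck hs),
    (gop hh).c_smul (imF_ck hs), (gop hh).c_smul (imF_ck hs), (gop hh).c_smul (reF_ck hs), gfun]
  apply Complex.ext <;> simp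

theorem gfun_conj (s : X → ℂ) (hs : CkFn C2 ∞ s) :
    gfun hh (fun x => conj (s x)) = conj (gfun hh s) := by
  have h1 : reF (fun x => conj (s x)) = reF s := rfl
  have h2 : imF (fun x => conj (s x)) = fun x => - imF s x := rfl
  rw [gfun, h1, h2, (gop hh).c_neg (imF_ck hs), gfun]
  simp

/-- the functional vanishes on `tr_h ∂∂̄u` -/
theorem gfun_ddb {s : X → ℂ} (hs : CkFn C2 ∞ s) : gfun hh (trh h (ddb s)) = 0 := by
  have h0 : reF (trh h (ddb s)) = (gop hh).P (reF s) := by
    funext x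
    simp only [reF]
    rw [trh_eq hh (ckFn_two' hs)]
    simp
  have h1 : imF (trh h (ddb s)) = (gop hh).P (imF s) := by
    funext x
    simp only [imF]
    rw [trh_eq hh (ckFn_two' hs)]
    simp
  rw [gfun, h0, h1, (gop hh).c_P (reF_ck hs), (gop hh).c_P (imF_ck hs)]
  simp

/-- the equation `tr_h ∂∂̄u = g` -/
theorem exists_trh_ddb_eq {g : X → ℂ} (hg : CkFn C2 ∞ g) (h0 : gfun hh g = 0) :
    ∃ u : X → ℂ, CkFn C2 ∞ u ∧ trh h (ddb u) = g := by
  have h1 : (gop hh).c (reF g) = 0 := by
    have := congrArg Complex.re h0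
    simpa [gfun] using this
  have h2 : (gop hh).c (imF g) = 0 := by
    have := congrArg Complex.im h0
    simpa [gfun] using this
  obtain ⟨u, hu, hu'⟩ := (gop hh).exists_of_c_eq_zero (reF_ck hg) h1
  obtain ⟨v, hv, hv'⟩ := (gop hh).exists_of_c_eq_zero (imF_ck hg) h2
  have hs : CkFn C2 ∞ fun x => cx u x + Complex.I * cx v x := fun e he x hx =>
    (cx_ck hu e he x hx).add (contDiffAt_const.mul (cx_ck hv e he x hx))
  refine ⟨_, hs, ?_⟩
  funext x
  rw [trh_eq hh (ckFn_two' hs)]
  have e1 : reF (fun x => cx u x + Complex.I * cx v x) = u := by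
    funext x; simp [reF, cx]
  have e2 : imF (fun x => cx u x + Complex.I * cx v x) = v := by
    funext x; simp [imF, cx]
  rw [e1, e2, hu', hv']
  exact congrFun (reF_add_imF g) x

end

end Vale.Agent.P267.H661
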