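import Vale.Agent.P267.H661.Solve
import Vale.Agent.P272.K.N.Linear

/-! The operator `P u = tr_w (∂∂̄ u)` on a complex manifold with Hermitian metric `w`
(package GAUD of P267). -/

open scoped Manifold ContDiff ComplexOrder Topology NNReal
open Filter Set Metric

set_option maxSynthPendingDepth 3
set_option linter.unusedSectionVars false

noncomputable section

namespace Vale.Agent.P267.H661

open Vale.Agent.P272.K Vale.Agent.P272.K.LIN Vale.Agent.P272.K.N

variable {n : ℕ} {X : Type*} [TopologicalSpace X] [ChartedSpace (Cm n) X]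
  [IsManifold (modelWithCornersSelf ℂ (Cm n)) ω X]
  {w : Chart n X → Cm n → Matrix (Fin n) (Fin n) ℂ} (hw : IsHermitian w)

/-- the coefficient functional `B ↦ Re tr (M lev B)` -/
def trL (M : Matrix (Fin n) (Fin n) ℂ) : Bil n →L[ℝ] ℝ := ∑ j, ∑ k, coefL j k (M j k)

theorem trL_apply (M : Matrix (Fin n) (Fin n) ℂ) (B : Bil n) :
    trL M B = (M * lev B).trace.re := by
  rw [trL]
  simp only [_root_.sum_apply, coefL_apply, Matrix.trace, Matrix.diag_apply, Matrix.mul_apply,
    Complex.re_sum]

/-- `P u = tr_w (∂∂̄ u)`, computed in the preferred chart -/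
def Pw (w : Chart n X → Cm n → Matrix (Fin n) (Fin n) ℂ) (u : X → ℝ) (x : X) : ℝ :=
  ((w (chartAt (Cm n) x) (chartAt (Cm n) x x))⁻¹ *
    cHess (fun y => u ((chartAt (Cm n) x).symm y)) (chartAt (Cm n) x x)).trace.re

include hw in
theorem Pw_eq {u : X → ℝ} (hu : CkFn (Cm n) 2 u) {e : Chart n X} {x : X} (h : At e x) :
    Pw w u x = ((w e (e x))⁻¹ * cHess (fun y => u (e.symm y)) (e x)).trace.re := by
  have h0 : At (chartAt (Cm n) x) x := ⟨chart_mem_atlas _ x, mem_chart_source _ x⟩
  have := trace_inv (X := X) (b := w) (c := fun (e : Chart n X) z =>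
    cHess (fun y => u (e.symm y)) z) hw.isForm
    (isForm_cHess (X := X) (c2Fn_iff.2 hu)) h0 h
  exact congrArg Complex.re this

/-- The operator `P` as an elliptic operator. -/
def opH : SOp (Cm n) X where
  a e y := trL (w e y)⁻¹
  smooth e he y hy := by
    unfold trL
    refine ContDiffAt.sum fun j _ => ContDiffAt.sum fun k _ => ?_
    exact (coefL j k).contDiff.contDiffAt.comp y
      (contDiffAt_inv (fun a b => hw.smooth_target he hy a b) (hw.det_ne_zero_target he hy) j k)
  pos e he y hy ξ hξ := by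
    rw [trL_apply]
    have h := hw.posDef e (e.symm y) ⟨he, e.map_target hy⟩
    rw [e.right_inv hy] at h
    exact trace_inv_lev_pos h hξ
  P := Pw w
  eq u hu e he x hx := by
    rw [Pw_eq hw hu ⟨he, hx⟩, trL_apply, cHess_eq_lev]
    exact diffble2 (hu e he x hx)

end Vale.Agent.P267.H661
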