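import Vale.Agent.P267.H661.Func
import Vale.Agent.P267.H661.Cx
import Vale.Agent.P267.H399.Wirt

/-! The operator `u ↦ tr_h (∂∂̄u)` in the language of `H399/Defs.lean` (package GAUD of P267). -/

open scoped Manifold ContDiff ComplexOrder Topology NNReal ComplexConjugate
open Filter Set Metric

set_option maxSynthPendingDepth 3
set_option linter.unusedSectionVars false

noncomputable section

namespace Vale.Agent.P267.H661

open Vale.Agent.P267.FL

theorem dz_eq (j : Fin 2) (f : C2 → ℂ) (z : C2) : dz j f z = Vale.Agent.P272.K.dz j f z := by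
  unfold dz Vale.Agent.P272.K.dz
  simp only [smul_eq_mul]
  ring

theorem dzb_eq (j : Fin 2) (f : C2 → ℂ) (z : C2) : dzb j f z = Vale.Agent.P272.K.dzb j f z := by
  unfold dzb Vale.Agent.P272.K.dzb
  simp only [smul_eq_mul]
  ring

section
variable {X : Type*} [TopologicalSpace X]

theorem jacM_eq' (e e' : Ch X) (x : X) : jacM e e' x = Vale.Agent.P272.K.jacM e e' x := by
  ext p i
  exact dz_eq _ _ _

variable [ChartedSpace C2 X]

theorem at_chart (x : X) : Vale.Agent.P272.K.At (chartAt C2 x) x :=
  ⟨chart_mem_atlas _ x, mem_chart_source _ x⟩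

theorem jac_eq (e : Ch X) (x : X) :
    jac e x = Vale.Agent.P272.K.jacM e (chartAt C2 x) x := jacM_eq' _ _ _

theorem loc11_eq (e : Ch X) (g : X → Matrix (Fin 2) (Fin 2) ℂ) (z : C2) :
    loc11 e g z = (jac e (e.symm z)).transpose * g (e.symm z) *
      (jac e (e.symm z)).map (starRingEnd ℂ) := by
  ext i j
  simp only [loc11, Matrix.of_apply, Matrix.mul_apply, Fin.sum_univ_two, Matrix.transpose_apply,
    Matrix.map_apply, smul_eq_mul]
  ring

section fn
variable {V : Type*} [NormedAddCommGroup V] [NormedSpace ℂ V]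

theorem loc0_zero (e : Ch X) (s : X → V) (z : C2) : loc0 0 e s z = s (e.symm z) := by
  simp [loc0]

theorem loc0_zero' (e : Ch X) (s : X → V) : loc0 0 e s = fun z => s (e.symm z) :=
  funext fun z => loc0_zero e s z

theorem loc1_zero (e : Ch X) (a : X → Fin 2 → V) (z : C2) (i : Fin 2) :
    loc1 0 e a z i = ∑ p, conj (jac e (e.symm z) p i) • a (e.symm z) p := by
  simp [loc1]

open Vale.Agent.P272.K.LIN in
theorem reg0_iff {n : WithTop ℕ∞} {s : X → V} : Reg0 n 0 s ↔ CkFn C2 n s := by
  constructor
  · intro h e he x hx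
    have := (h e he).contDiffAt (e.open_target.mem_nhds (e.map_source hx))
    rwa [loc0_zero'] at this
  · intro h e he z hz
    rw [loc0_zero']
    have := h.at_target he hz
    exact this.contDiffWithinAt

end fn

variable [IsManifold 𝓘(ℂ, C2) ω X]

theorem jac_chartAt (x : X) : jac (chartAt C2 x) x = 1 := by
  rw [jac_eq]
  exact Vale.Agent.P272.K.jacM_self (at_chart x)

theorem jac_cocycle {e e' : Ch X} {x : X} (h : Vale.Agent.P272.K.At e x)
    (h' : Vale.Agent.P272.K.At e' x) :
    jac e x = jac e' x * Vale.Agent.P272.K.jacM e e' x := by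
  rw [jac_eq, jac_eq]
  exact Vale.Agent.P272.K.jacM_comp h h' (at_chart x)

theorem isForm_loc11 (g : X → Matrix (Fin 2) (Fin 2) ℂ) :
    Vale.Agent.P272.K.IsForm fun (e : Ch X) z => loc11 e g z := by
  intro e e' x h h'
  show loc11 e g (e x) = _ * loc11 e' g (e' x) * _
  rw [loc11_eq, loc11_eq, h.left_inv, h'.left_inv, jac_cocycle h h', Matrix.transpose_mul]
  have : (jac e' x * Vale.Agent.P272.K.jacM e e' x).map (starRingEnd ℂ) =
      (jac e' x).map (starRingEnd ℂ) * (Vale.Agent.P272.K.jacM e e' x).map (starRingEnd ℂ) := by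
    rw [Matrix.map_mul]
  rw [this]
  simp only [Matrix.mul_assoc]

theorem loc11_chartAt (g : X → Matrix (Fin 2) (Fin 2) ℂ) (x : X) :
    loc11 (chartAt C2 x) g (chartAt C2 x x) = g x := by
  rw [loc11_eq, (at_chart x).left_inv, jac_chartAt]
  simp

/-- a Hermitian metric as a family of matrices in charts -/
theorem isHermitian_loc11 {h : X → Matrix (Fin 2) (Fin 2) ℂ} (hh : IsHerm h) :
    Vale.Agent.P272.K.IsHermitian fun (e : Ch X) z => loc11 e h z where
  smooth e x hx i j := (hh.smooth e hx.1 i j).contDiffAt (e.open_target.mem_nhds hx.mem_target)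
  posDef e x hx := by
    rw [loc11_eq, hx.left_inv]
    refine Vale.Agent.P272.K.posDef_form (hh.posDef x) ?_
    rw [jac_eq]
    exact Vale.Agent.P272.K.jacM_isUnit hx (at_chart x)
  change := isForm_loc11 h

section dbar
variable {V : Type*} [NormedAddCommGroup V] [NormedSpace ℂ V]

open Vale.Agent.P272.K.LIN in
/-- `∂̄s` in a chart of the atlas -/
theorem loc1_dbar0 {s : X → V} {e : Ch X} (he : e ∈ atlas C2 X) {z : C2} (hz : z ∈ e.target)
    (hs : CkFn C2 1 s) (j : Fin 2) :
    loc1 0 e (dbar0 0 s) z j = dzb j (fun z => s (e.symm z)) z := by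
  rw [loc1_zero]
  have hx : Vale.Agent.P272.K.At e (e.symm z) := ⟨he, e.map_target hz⟩
  set x := e.symm z with hxdef
  have hex : e x = z := e.right_inv hz
  have hc := at_chart x
  have h1 : (fun y => s (e.symm y)) =ᶠ[𝓝 z]
      fun y => s ((chartAt C2 x).symm (chartAt C2 x (e.symm y))) := by
    have := hx.nhds_at hc
    rw [hex] at this
    filter_upwards [this] with y hy
    rw [hy.2.2.left_inv]
  rw [dzb_congr h1]
  have h2 : DifferentiableAt ℝ (fun y => s ((chartAt C2 x).symm y)) (chartAt C2 x (e.symm z)) :=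
    (hs _ hc.1 x hc.2).differentiableAt (by simp)
  have h3 : DifferentiableAt ℂ (fun y => chartAt C2 x (e.symm y)) z := by
    have := Vale.Agent.P272.K.transition_differentiableAt hx hc
    rwa [hex] at this
  have := dzb_comp (f := fun y => s ((chartAt C2 x).symm y)) (g := fun y => chartAt C2 x (e.symm y))
    h2 h3 j
  rw [this]
  refine Finset.sum_congr rfl fun p _ => ?_
  simp only [dbar0, loc0_zero', jac, jacM, Matrix.of_apply, hex, ← hxdef]

open Vale.Agent.P272.K.LIN in
theorem ddb_eq {s : X → V} (hs : CkFn C2 1 s) (x : X) (i j : Fin 2) :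
    ddb s x i j = dz i (dzb j fun y => s ((chartAt C2 x).symm y)) (chartAt C2 x x) := by
  simp only [ddb, del1, Matrix.of_apply]
  refine dz_congr ?_ i
  filter_upwards [(chartAt C2 x).open_target.mem_nhds (at_chart x).mem_target] with z hz
  exact loc1_dbar0 (chart_mem_atlas _ x) hz hs j

end dbar

end

end Vale.Agent.P267.H661
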