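import Vale.Agent.P267.H661.Gf

/-! Functions with `tr_h ∂∂̄u = 0` on a compact connected surface are constant
(package GAUD of P267). -/

open scoped Manifold ContDiff ComplexOrder Topology NNReal ComplexConjugate
open Filter Set Metric

set_option maxSynthPendingDepth 3
set_option linter.unusedSectionVars false

noncomputable section

namespace Vale.Agent.P267.H661

open Vale.Agent.P267.FL Vale.Agent.P272.K.LIN

variable {X : Type*} [TopologicalSpace X] [ChartedSpace C2 X] [IsManifold 𝓘(ℂ, C2) ω X]
  [CompactSpace X] [ConnectedSpace X] {h : X → Matrix (Fin 2) (Fin 2) ℂ} (hh : IsHerm h)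

include hh in
/-- a smooth function with `tr_h ∂∂̄u = 0` is constant -/
theorem const_of_trh_ddb {s : X → ℂ} (hs : Reg0 ∞ 0 s) (h0 : ∀ x, trh h (ddb s) x = 0) (x y : X) :
    s x = s y := by
  have hck := reg0_iff.1 hs
  have h1 : ∀ x, (gop hh).P (reF s) x = 0 := by
    intro x
    have := congrArg Complex.re (h0 x)
    rw [trh_eq hh (ckFn_two' hck)] at this
    simpa using this
  have h2 : ∀ x, (gop hh).P (imF s) x = 0 := by
    intro x
    have := congrArg Complex.im (h0 x)
    rw [trh_eq hh (ckFn_two' hck)] at this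
    simpa using this
  have k1 := (gop hh).const_of_nonneg (ckFn_two' (reF_ck hck)) (fun x => (h1 x).ge) x y
  have k2 := (gop hh).const_of_nonneg (ckFn_two' (imF_ck hck)) (fun x => (h2 x).ge) x y
  exact Complex.ext k1 k2

include hh in
/-- a smooth function with `∂∂̄u = 0` is constant -/
theorem const_of_ddb {s : X → ℂ} (hs : Reg0 ∞ 0 s) (h0 : ∀ x, ddb s x = 0) :
    ∃ c : ℂ, s = fun _ => c := by
  obtain ⟨x0⟩ : Nonempty X := inferInstance
  refine ⟨s x0, funext fun x => const_of_trh_ddb hh hs (fun x => ?_) x x0⟩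
  rw [trh, h0, Matrix.mul_zero, Matrix.trace_zero]

end Vale.Agent.P267.H661
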