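import Vale.Agent.P267.H661.Solve

/-! The Gauduchon functional: for an elliptic operator `P` without lower order terms on a compact
connected manifold, the constant `c g` such that `P u = g - c g` is solvable (package GAUD of P267).
-/

open scoped Topology ContDiff NNReal
open Filter Set Metric

set_option maxSynthPendingDepth 3
set_option linter.unusedSectionVars false

noncomputable section

namespace Vale.Agent.P267.H661

open Vale.Agent.P272.K Vale.Agent.P272.K.LIN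

variable {E : Type} [NormedAddCommGroup E] [NormedSpace ℝ E] {X : Type*} [TopologicalSpace X]
  [ChartedSpace E X] [FiniteDimensional ℝ E] (A : SOp E X)
  [CompactSpace X] [T2Space X] [RSm E X] [ConnectedSpace X]

open Classical in
/-- The Gauduchon functional. -/
def SOp.c (g : X → ℝ) : ℝ :=
  if hg : CkFn E ∞ g then (A.exists_solve hg).choose_spec.choose else 0

theorem SOp.c_spec {g : X → ℝ} (hg : CkFn E ∞ g) :
    ∃ u : X → ℝ, CkFn E ∞ u ∧ ∀ x, A.P u x = g x - A.c g := by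
  refine ⟨(A.exists_solve hg).choose, ?_⟩
  rw [SOp.c, dif_pos hg]
  exact (A.exists_solve hg).choose_spec.choose_spec

omit [T2Space X] [RSm E X] in
/-- uniqueness of the constant -/
theorem SOp.const_eq_zero {u : X → ℝ} (hu : CkFn E 2 u) {c : ℝ} (h : ∀ x, A.P u x = c) :
    c = 0 := by
  have hne : (univ : Set X).Nonempty := univ_nonempty
  obtain ⟨x0, -, hx0⟩ := isCompact_univ.exists_isMaxOn hne (ckFn_continuous hu).continuousOn
  obtain ⟨x1, -, hx1⟩ := isCompact_univ.exists_isMinOn hne (ckFn_continuous hu).continuousOn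
  have h0 : A.P u x0 ≤ 0 := A.nonpos_of_isLocalMax hu
    (Eventually.of_forall fun z => hx0 (mem_univ z))
  have h1 : A.P (fun x => - u x) x1 ≤ 0 := A.nonpos_of_isLocalMax hu.neg
    (Eventually.of_forall fun z => neg_le_neg (hx1 (mem_univ z)))
  rw [A.P_neg hu, h] at h1
  rw [h] at h0
  linarith

omit [T2Space X] [RSm E X] in
theorem SOp.const_unique {g u v : X → ℝ} (hu : CkFn E 2 u) (hv : CkFn E 2 v) {c c' : ℝ}
    (h : ∀ x, A.P u x = g x - c) (h' : ∀ x, A.P v x = g x - c') : c = c' := by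
  have := A.const_eq_zero (hu.sub hv) (c := c' - c) fun x => by
    rw [A.P_sub hu hv, h, h']; ring
  linarith

theorem ckFn_two {X : Type*} [TopologicalSpace X] [ChartedSpace E X] {u : X → ℝ}
    (hu : CkFn E ∞ u) : CkFn E 2 u := by
  have : ((2 : ℕ∞) : WithTop ℕ∞) ≤ ((⊤ : ℕ∞) : WithTop ℕ∞) := WithTop.coe_le_coe.2 le_top
  exact hu.of_le this

/-- The constant is unique. -/
theorem SOp.c_eq {g u : X → ℝ} (hg : CkFn E ∞ g) (hu : CkFn E 2 u) {c : ℝ}
    (h : ∀ x, A.P u x = g x - c) : A.c g = c := by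
  obtain ⟨v, hv, hv'⟩ := A.c_spec hg
  exact A.const_unique (ckFn_two hv) hu hv' h

theorem SOp.c_const (r : ℝ) : A.c (fun _ : X => r) = r :=
  A.c_eq (ckFn_const r) (ckFn_const 0) fun x => by rw [A.P_const]; ring

theorem SOp.c_zero : A.c (fun _ : X => (0 : ℝ)) = 0 := A.c_const 0

theorem SOp.c_one : A.c (fun _ : X => (1 : ℝ)) = 1 := A.c_const 1

theorem SOp.c_add {g g' : X → ℝ} (hg : CkFn E ∞ g) (hg' : CkFn E ∞ g') :
    A.c (fun x => g x + g' x) = A.c g + A.c g' := by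
  obtain ⟨u, hu, hu'⟩ := A.c_spec hg
  obtain ⟨v, hv, hv'⟩ := A.c_spec hg'
  exact A.c_eq (hg.add hg') (ckFn_two (hu.add hv)) fun x => by
    rw [A.P_add (ckFn_two hu) (ckFn_two hv), hu', hv']; ring

theorem SOp.c_smul {g : X → ℝ} (hg : CkFn E ∞ g) (r : ℝ) :
    A.c (fun x => r * g x) = r * A.c g := by
  obtain ⟨u, hu, hu'⟩ := A.c_spec hg
  exact A.c_eq ((ckFn_const r).mul hg) (ckFn_two ((ckFn_const r).mul hu)) fun x => by
    rw [A.P_smul (ckFn_two hu), hu']; ring

theorem SOp.c_neg {g : X → ℝ} (hg : CkFn E ∞ g) : A.c (fun x => - g x) = - A.c g := by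
  have := A.c_smul hg (-1)
  simpa using this

theorem SOp.c_sub {g g' : X → ℝ} (hg : CkFn E ∞ g) (hg' : CkFn E ∞ g') :
    A.c (fun x => g x - g' x) = A.c g - A.c g' := by
  have := A.c_add hg hg'.neg
  rw [A.c_neg hg'] at this
  simpa [sub_eq_add_neg] using this

/-- The functional vanishes on the image of `P`. -/
theorem SOp.c_P {u : X → ℝ} (hu : CkFn E ∞ u) : A.c (A.P u) = 0 :=
  A.c_eq (A.smooth_P hu) (ckFn_two hu) fun x => by ring

/-- Solvability criterion. -/
theorem SOp.exists_of_c_eq_zero {g : X → ℝ} (hg : CkFn E ∞ g) (h : A.c g = 0) :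
    ∃ u : X → ℝ, CkFn E ∞ u ∧ ∀ x, A.P u x = g x := by
  obtain ⟨u, hu, hu'⟩ := A.c_spec hg
  exact ⟨u, hu, fun x => by rw [hu', h, sub_zero]⟩

/-- Strict positivity. -/
theorem SOp.c_pos {g : X → ℝ} (hg : CkFn E ∞ g) (h : ∀ x, 0 ≤ g x) {x0 : X} (h0 : 0 < g x0) :
    0 < A.c g := by
  by_contra hc
  rw [not_lt] at hc
  obtain ⟨u, hu, hu'⟩ := A.c_spec hg
  have h1 : ∀ x, 0 ≤ A.P u x := fun x => by rw [hu']; linarith [h x]
  have h2 := A.const_of_nonneg (ckFn_two hu) h1
  have h3 : u = fun _ => u x0 := funext fun x => h2 x x0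
  have h4 := hu' x0
  rw [h3, A.P_const] at h4
  linarith

theorem SOp.c_nonneg {g : X → ℝ} (hg : CkFn E ∞ g) (h : ∀ x, 0 ≤ g x) : 0 ≤ A.c g := by
  by_cases h0 : ∃ x0, 0 < g x0
  · obtain ⟨x0, h0⟩ := h0
    exact (A.c_pos hg h h0).le
  · push Not at h0
    have : g = fun _ => 0 := funext fun x => le_antisymm (h0 x) (h x)
    rw [this, A.c_zero]

/-- A nonnegative function with vanishing functional is zero. -/
theorem SOp.eq_zero_of_c_nonpos {g : X → ℝ} (hg : CkFn E ∞ g) (h : ∀ x, 0 ≤ g x)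
    (hc : A.c g ≤ 0) (x : X) : g x = 0 := by
  by_contra hx
  exact (A.c_pos hg h (lt_of_le_of_ne (h x) (Ne.symm hx))).not_ge hc

theorem SOp.c_mono {g g' : X → ℝ} (hg : CkFn E ∞ g) (hg' : CkFn E ∞ g') (h : ∀ x, g x ≤ g' x) :
    A.c g ≤ A.c g' := by
  have h1 := A.c_nonneg (hg'.sub hg) fun x => sub_nonneg.2 (h x)
  rw [A.c_sub hg' hg] at h1
  linarith

theorem SOp.abs_c_le {g : X → ℝ} (hg : CkFn E ∞ g) {M : ℝ} (h : ∀ x, |g x| ≤ M) :
    |A.c g| ≤ M := by
  rw [abs_le]
  constructor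
  · have := A.c_mono (ckFn_const (-M)) hg fun x => (abs_le.1 (h x)).1
    rwa [A.c_const] at this
  · have := A.c_mono hg (ckFn_const M) fun x => (abs_le.1 (h x)).2
    rwa [A.c_const] at this

end Vale.Agent.P267.H661
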