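import Vale.Agent.P267.H661.Prim

/-! The Gauduchon functional on the space `S0 X` of smooth functions (package GAUD of P267). -/

open scoped Manifold ContDiff ComplexOrder Topology NNReal ComplexConjugate
open Filter Set Metric

set_option maxSynthPendingDepth 3
set_option linter.unusedSectionVars false

noncomputable section

namespace Vale.Agent.P267.H661

open Vale.Agent.P267.FL Vale.Agent.P272.K.LIN

variable {X : Type*} [TopologicalSpace X] [ChartedSpace C2 X] [IsManifold 𝓘(ℂ, C2) ω X]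
  [CompactSpace X] [T2Space X] [ConnectedSpace X] {h : X → Matrix (Fin 2) (Fin 2) ℂ}
  (hh : IsHerm h)

/-- The Gauduchon functional as a linear map on smooth functions. -/
def gS0 : H469.S0 X →ₗ[ℂ] ℂ where
  toFun s := gfun hh s
  map_add' s t := gfun_add hh (reg0_iff.1 s.2) (reg0_iff.1 t.2)
  map_smul' c s := gfun_smul hh (reg0_iff.1 s.2) c

theorem gS0_apply (s : H469.S0 X) : gS0 hh s = gfun hh s := rfl

/-- the function one -/
def oneS0 : H469.S0 X := ⟨fun _ => 1, reg0_iff.2 (ckFn_const 1)⟩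

theorem gS0_one : gS0 hh (oneS0 : H469.S0 X) = 1 := gfun_const hh 1

theorem gS0_tr (u : H469.S0 X) : gS0 hh (trL0 hh (H469.del1L (H469.dbar0L u))) = 0 :=
  gfun_ddb hh (reg0_iff.1 u.2)

theorem gS0_surj (g : H469.S0 X) (h0 : gS0 hh g = 0) :
    ∃ u : H469.S0 X, trL0 hh (H469.del1L (H469.dbar0L u)) = g := by
  obtain ⟨u, hu, hu'⟩ := exists_trh_ddb_eq hh (reg0_iff.1 g.2) h0
  exact ⟨⟨u, reg0_iff.2 hu⟩, Subtype.ext hu'⟩

end Vale.Agent.P267.H661
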