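import Vale.Agent.P267.H661.Const
import Vale.Agent.P267.H469.Inst

/-! The trace of a `(1,1)`-form is smooth; pointwise negativity of primitive `(1,1)`-forms
(for the instance of `H469.Calc`; package GAUD of P267). -/

open scoped Manifold ContDiff ComplexOrder Topology NNReal ComplexConjugate
open Filter Set Metric

set_option maxSynthPendingDepth 3
set_option linter.unusedSectionVars false

noncomputable section

namespace Vale.Agent.P267.H661

open Vale.Agent.P267.FL Vale.Agent.P272.K.LIN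

section trace
variable {X : Type*} [TopologicalSpace X] [ChartedSpace C2 X] [IsManifold 𝓘(ℂ, C2) ω X]
  {h : X → Matrix (Fin 2) (Fin 2) ℂ} (hh : IsHerm h)

theorem trh_chart (g : X → Matrix (Fin 2) (Fin 2) ℂ) {e : Ch X} (he : e ∈ atlas C2 X) {x : X}
    (hx : x ∈ e.source) : trh h g x = ((loc11 e h (e x))⁻¹ * loc11 e g (e x)).trace := by
  have := Vale.Agent.P272.K.trace_inv (X := X) (isForm_loc11 h) (isForm_loc11 g)
    (⟨he, hx⟩ : Vale.Agent.P272.K.At e x) (at_chart x)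
  rw [this, loc11_chartAt, loc11_chartAt, trh]

include hh in
/-- the trace of a smooth `(1,1)`-form is smooth -/
theorem reg_trh {g : X → Matrix (Fin 2) (Fin 2) ℂ} (hg : Reg11 ∞ g) : Reg0 ∞ 0 (trh h g) := by
  rw [reg0_iff]
  intro e he x hx
  have h1 : (fun y => trh h g (e.symm y)) =ᶠ[𝓝 (e x)] fun y =>
      ∑ j, ∑ k, (loc11 e h y)⁻¹ j k * loc11 e g y k j := by
    filter_upwards [e.open_target.mem_nhds (e.map_source hx)] with y hy
    rw [trh_chart g he (e.map_target hy), e.right_inv hy]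
    simp only [Matrix.trace, Matrix.diag_apply, Matrix.mul_apply]
  refine ContDiffAt.congr_of_eventuallyEq ?_ h1
  have hw := isHermitian_loc11 hh
  refine ContDiffAt.sum fun j _ => ContDiffAt.sum fun k _ => ?_
  refine ContDiffAt.mul ?_ ?_
  · exact Vale.Agent.P272.K.contDiffAt_inv
      (fun a b => hw.smooth_target he (e.map_source hx) a b)
      (hw.det_ne_zero_target he (e.map_source hx)) j k
  · exact (hg e he k j).contDiffAt (e.open_target.mem_nhds (e.map_source hx))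

/-- the trace as a linear map -/
def trL0 : H469.S11 X →ₗ[ℂ] H469.S0 X where
  toFun g := ⟨trh h g, reg_trh hh g.2⟩
  map_add' a b := Subtype.ext (funext fun x => by
    show trh h ((a : X → Matrix (Fin 2) (Fin 2) ℂ) + b) x = trh h a x + trh h b x
    simp [trh, Matrix.mul_add, Matrix.trace_add])
  map_smul' c a := Subtype.ext (funext fun x => by
    show trh h (c • (a : X → Matrix (Fin 2) (Fin 2) ℂ)) x = c * trh h a x
    simp [trh, Matrix.trace_smul])

theorem trL0_apply (g : H469.S11 X) : ((trL0 hh g : H469.S0 X) : X → ℂ) = trh h g := rfl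

include hh in
/-- the trace and conjugation -/
theorem trh_cj11 (g : X → Matrix (Fin 2) (Fin 2) ℂ) (x : X) :
    trh h (H469.cj11 g) x = - conj (trh h g x) := by
  have hm := hh.posDef x
  have h0 : H469.cj11 g x = - (g x).conjTranspose := by
    ext i j; simp [H469.cj11, Matrix.conjTranspose_apply]
  have h1 : ((h x)⁻¹ * g x).conjTranspose = (g x).conjTranspose * (h x)⁻¹ := by
    rw [Matrix.conjTranspose_mul, Matrix.conjTranspose_nonsing_inv, hm.1.eq]
  rw [trh, trh, h0, Matrix.mul_neg, Matrix.trace_neg, ← Matrix.trace_mul_comm (g x).conjTranspose,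
    ← h1, Matrix.trace_conjTranspose]
  rfl

end trace

section algebra

open scoped MatrixOrder in
theorem exists_root {H : Matrix (Fin 2) (Fin 2) ℂ} (hH : H.PosDef) :
    ∃ R : Matrix (Fin 2) (Fin 2) ℂ, H = R.conjTranspose * R := by
  have h0 : 0 ≤ H := hH.posSemidef.nonneg
  refine ⟨CFC.sqrt H, ?_⟩
  have h1 : IsSelfAdjoint (CFC.sqrt H) := (CFC.sqrt_nonneg H).isSelfAdjoint
  rw [← Matrix.star_eq_conjTranspose, h1.star_eq, CFC.sqrt_mul_sqrt_self H h0]

/-- polarised determinant -/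
def pdet (B C : Matrix (Fin 2) (Fin 2) ℂ) : ℂ :=
  B 0 0 * C 1 1 + B 1 1 * C 0 0 - B 0 1 * C 1 0 - B 1 0 * C 0 1

theorem pdet_mul (P Q B C : Matrix (Fin 2) (Fin 2) ℂ) :
    pdet (P * B * Q) (P * C * Q) = P.det * Q.det * pdet B C := by
  simp only [pdet, Matrix.mul_apply, Fin.sum_univ_two, Matrix.det_fin_two]
  ring

theorem pdet_conj {B : Matrix (Fin 2) (Fin 2) ℂ} (hB : B.trace = 0) :
    pdet B B.conjTranspose =
      ((-(2 * ‖B 0 0‖ ^ 2 + ‖B 0 1‖ ^ 2 + ‖B 1 0‖ ^ 2) : ℝ) : ℂ) := by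
  have h1 : B 1 1 = - B 0 0 := by
    rw [Matrix.trace_fin_two] at hB
    linear_combination hB
  have k : ∀ z : ℂ, ((‖z‖ ^ 2 : ℝ) : ℂ) = z * conj z := by
    intro z
    rw [Complex.mul_conj, Complex.normSq_eq_norm_sq]
  push_cast at k ⊢
  rw [pdet]
  simp only [Matrix.conjTranspose_apply, h1, Complex.star_def, map_neg]
  rw [k, k, k]
  ring

theorem eq_zero_of_sq {C : Matrix (Fin 2) (Fin 2) ℂ} (htr : C.trace = 0)
    (h1 : 2 * ‖C 0 0‖ ^ 2 + ‖C 0 1‖ ^ 2 + ‖C 1 0‖ ^ 2 ≤ 0) : C = 0 := by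
  have a0 := sq_nonneg ‖C 0 0‖
  have a1 := sq_nonneg ‖C 0 1‖
  have a2 := sq_nonneg ‖C 1 0‖
  have b0 : ‖C 0 0‖ ^ 2 = 0 := by linarith
  have b1 : ‖C 0 1‖ ^ 2 = 0 := by linarith
  have b2 : ‖C 1 0‖ ^ 2 = 0 := by linarith
  have c00 : C 0 0 = 0 := by simpa using b0
  have c01 : C 0 1 = 0 := by simpa using b1
  have c10 : C 1 0 = 0 := by simpa using b2
  have c11 : C 1 1 = 0 := by
    rw [Matrix.trace_fin_two, c00, zero_add] at htr
    exact htr
  ext i j
  fin_cases i <;> fin_cases j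
  · exact c00
  · exact c01
  · exact c10
  · exact c11

/-- **Pointwise negativity**: for a positive definite `H` and `tr (H⁻¹ B) = 0`. -/
theorem pdet_neg {H B : Matrix (Fin 2) (Fin 2) ℂ} (hH : H.PosDef) (hB : (H⁻¹ * B).trace = 0) :
    (pdet B B.conjTranspose).im = 0 ∧ (pdet B B.conjTranspose).re ≤ 0 ∧
      (0 ≤ (pdet B B.conjTranspose).re → B = 0) := by
  obtain ⟨R, hR⟩ := exists_root hH
  have hdet : H.det ≠ 0 := hH.isUnit.map Matrix.detMonoidHom |>.ne_zero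
  have hRdet : R.det ≠ 0 := by
    intro h0
    apply hdet
    rw [hR, Matrix.det_mul, h0, mul_zero]
  have hRu : IsUnit R.det := isUnit_iff_ne_zero.2 hRdet
  have hRcu : IsUnit R.conjTranspose.det := by
    rw [Matrix.det_conjTranspose]
    exact isUnit_iff_ne_zero.2 ((map_ne_zero (starRingEnd ℂ)).2 hRdet)
  set C := (R.conjTranspose)⁻¹ * B * R⁻¹ with hC
  have hBC : B = R.conjTranspose * C * R := by
    rw [hC]
    simp only [Matrix.mul_assoc]
    rw [Matrix.nonsing_inv_mul _ hRu, Matrix.mul_one, ← Matrix.mul_assoc,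
      Matrix.mul_nonsing_inv _ hRcu, Matrix.one_mul]
  have hBct : B.conjTranspose = R.conjTranspose * C.conjTranspose * R := by
    rw [hBC]
    simp only [Matrix.conjTranspose_mul, Matrix.conjTranspose_conjTranspose, Matrix.mul_assoc]
  have htr : C.trace = 0 := by
    have h1 : H⁻¹ * B = R⁻¹ * C * R := by
      rw [hR, Matrix.mul_inv_rev, hBC]
      simp only [Matrix.mul_assoc]
      rw [← Matrix.mul_assoc (R.conjTranspose)⁻¹, Matrix.nonsing_inv_mul _ hRcu, Matrix.one_mul]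
    rw [h1, Matrix.trace_mul_comm, ← Matrix.mul_assoc, Matrix.mul_nonsing_inv _ hRu,
      Matrix.one_mul] at hB
    exact hB
  have hkey : pdet B B.conjTranspose = ((‖R.det‖ ^ 2 *
      -(2 * ‖C 0 0‖ ^ 2 + ‖C 0 1‖ ^ 2 + ‖C 1 0‖ ^ 2) : ℝ) : ℂ) := by
    rw [hBct]
    conv_lhs => rw [hBC]
    rw [pdet_mul, pdet_conj htr, Matrix.det_conjTranspose, Complex.ofReal_mul]
    congr 1
    rw [Complex.star_def, mul_comm, Complex.mul_conj, Complex.normSq_eq_norm_sq]
  rw [hkey, Complex.ofReal_im, Complex.ofReal_re]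
  have hpos : 0 < ‖R.det‖ ^ 2 := by positivity
  refine ⟨rfl, ?_, fun h0 => ?_⟩
  · have : 0 ≤ 2 * ‖C 0 0‖ ^ 2 + ‖C 0 1‖ ^ 2 + ‖C 1 0‖ ^ 2 := by positivity
    nlinarith
  · have h1 : 2 * ‖C 0 0‖ ^ 2 + ‖C 0 1‖ ^ 2 + ‖C 1 0‖ ^ 2 ≤ 0 := by
      by_contra hcon
      push Not at hcon
      nlinarith [mul_pos hpos hcon]
    rw [hBC, eq_zero_of_sq htr h1]
    simp

/-- the wedge of a `(1,1)`-form with its conjugate -/
theorem wedge_cj11 {X : Type*} (g : X → Matrix (Fin 2) (Fin 2) ℂ) (x : X) :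
    TwoF.wedge ⟨0, g, 0⟩ ⟨0, H469.cj11 g, 0⟩ x = pdet (g x) (g x).conjTranspose := by
  simp only [TwoF.wedge, pdet, H469.cj11, Matrix.of_apply, Matrix.conjTranspose_apply,
    Pi.zero_apply, Complex.star_def]
  ring

/-- negativity on primitive forms -/
theorem wedge_prim {X : Type*} {h g : X → Matrix (Fin 2) (Fin 2) ℂ} {x : X} (hh : (h x).PosDef)
    (hg : trh h g x = 0) :
    (TwoF.wedge ⟨0, g, 0⟩ ⟨0, H469.cj11 g, 0⟩ x).im = 0 ∧
      (TwoF.wedge ⟨0, g, 0⟩ ⟨0, H469.cj11 g, 0⟩ x).re ≤ 0 ∧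
      (0 ≤ (TwoF.wedge ⟨0, g, 0⟩ ⟨0, H469.cj11 g, 0⟩ x).re → g x = 0) := by
  rw [wedge_cj11]
  exact pdet_neg hh hg

/-- the wedge of a `(2,0)`-form with its conjugate -/
theorem wedge_20 {X : Type*} (s : X → ℂ) (x : X) :
    TwoF.wedge ⟨s, 0, 0⟩ ⟨0, 0, H469.cj0 s⟩ x = ((‖s x‖ ^ 2 : ℝ) : ℂ) := by
  simp only [TwoF.wedge, H469.cj0, Pi.zero_apply, Matrix.zero_apply]
  rw [← Complex.normSq_eq_norm_sq, ← Complex.mul_conj]
  ring

end algebra

end Vale.Agent.P267.H661
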