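import Vale.Agent.P267.H661.Smp
import Vale.Agent.P272.K.LIN.LTFinal
import Vale.Agent.P272.K.R.Final
import Vale.Agent.P272.K.N.Setup
import Mathlib.Analysis.Normed.Operator.Compact.FredholmAlternative
import Mathlib.Topology.ContinuousMap.Bounded.ArzelaAscoli

/-! Scalar second order elliptic operators `u ↦ a D²u` (no lower order terms in the charts of the
atlas) on a compact connected manifold: solvability of `P u = g - c` (package GAUD of P267). -/

open scoped Topology ContDiff NNReal
open Filter Set Metric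

set_option maxSynthPendingDepth 3
set_option linter.unusedSectionVars false

noncomputable section

namespace Vale.Agent.P267.H661

open Vale.Agent.P272.K Vale.Agent.P272.K.LIN

/-- A smooth elliptic second order operator without lower order terms in the charts of the
atlas. -/
structure SOp (E : Type*) [NormedAddCommGroup E] [NormedSpace ℝ E] (X : Type*)
    [TopologicalSpace X] [ChartedSpace E X] where
  a : OpenPartialHomeomorph X E → E → (E →L[ℝ] E →L[ℝ] ℝ) →L[ℝ] ℝ
  smooth : ∀ e ∈ atlas E X, ∀ y ∈ e.target, ContDiffAt ℝ ∞ (a e) y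
  pos : ∀ e ∈ atlas E X, ∀ y ∈ e.target, ∀ ξ : E →L[ℝ] ℝ, ξ ≠ 0 → 0 < a e y (ξ.smulRight ξ)
  P : (X → ℝ) → X → ℝ
  eq : ∀ u, CkFn E 2 u → ∀ e ∈ atlas E X, ∀ x ∈ e.source,
    P u x = a e (e x) (fderiv ℝ (fderiv ℝ fun y => u (e.symm y)) (e x))

section general

variable {E : Type*} [NormedAddCommGroup E] [NormedSpace ℝ E] {X : Type*} [TopologicalSpace X]
  [ChartedSpace E X] [FiniteDimensional ℝ E] (A : SOp E X)

theorem ck_second {k : ℕ∞} {u : X → ℝ} (hu : CkFn E (k + 2 : ℕ∞) u)
    {e : OpenPartialHomeomorph X E} (he : e ∈ atlas E X) {y : E} (hy : y ∈ e.target) :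
    ContDiffAt ℝ k (fderiv ℝ (fderiv ℝ fun y => u (e.symm y))) y := by
  have h := hu.at_target he hy
  have h1 : ContDiffAt ℝ (k + 1 : ℕ∞) (fderiv ℝ fun y => u (e.symm y)) y :=
    h.fderiv_right (by
      have : ((k + 1 : ℕ∞) : WithTop ℕ∞) + 1 = ((k + 2 : ℕ∞) : WithTop ℕ∞) := by
        have h2 : (k + 1 + 1 : ℕ∞) = k + 2 := by rw [add_assoc, one_add_one_eq_two]
        rw [← h2]; rfl
      exact this.le)
  exact h1.fderiv_right (by push_cast; exact le_rfl)

theorem SOp.ck_P [RSm E X] {k : ℕ∞} {u : X → ℝ} (hu : CkFn E (k + 2 : ℕ∞) u) :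
    CkFn E k (A.P u) := by
  have hu2 : CkFn E 2 u := hu.of_le (by
    have : ((2 : ℕ∞) : WithTop ℕ∞) ≤ ((k + 2 : ℕ∞) : WithTop ℕ∞) := by
      exact_mod_cast le_add_self
    exact this)
  intro e he x hx
  have h1 : ∀ᶠ y in 𝓝 (e x), A.P u (e.symm y) =
      A.a e y (fderiv ℝ (fderiv ℝ fun y => u (e.symm y)) y) := by
    filter_upwards [e.open_target.mem_nhds (e.map_source hx)] with y hy
    have := A.eq u hu2 e he (e.symm y) (e.map_target hy)
    rwa [e.right_inv hy] at this
  refine ContDiffAt.congr_of_eventuallyEq ?_ h1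
  exact ((A.smooth e he _ (e.map_source hx)).of_le (by exact_mod_cast le_top)).clm_apply
    (ck_second hu he (e.map_source hx))

theorem SOp.smooth_P [RSm E X] {u : X → ℝ} (hu : CkFn E ∞ u) : CkFn E ∞ (A.P u) := by
  have : ((⊤ + 2 : ℕ∞) : WithTop ℕ∞) = ∞ := by norm_num
  exact A.ck_P (k := ⊤) (by rw [this]; exact hu)

theorem SOp.P_add {u v : X → ℝ} (hu : CkFn E 2 u) (hv : CkFn E 2 v) (x : X) :
    A.P (fun x => u x + v x) x = A.P u x + A.P v x := by
  have he := chart_mem_atlas E x
  have hx := mem_chart_source E x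
  rw [A.eq _ (hu.add hv) _ he x hx, A.eq _ hu _ he x hx, A.eq _ hv _ he x hx, ← map_add]
  congr 1
  have h1 : ∀ᶠ y in 𝓝 (chartAt E x x), fderiv ℝ (fun y => u ((chartAt E x).symm y) +
      v ((chartAt E x).symm y)) y = fderiv ℝ (fun y => u ((chartAt E x).symm y)) y +
      fderiv ℝ (fun y => v ((chartAt E x).symm y)) y := by
    filter_upwards [(chartAt E x).open_target.mem_nhds ((chartAt E x).map_source hx)] with y hy
    exact fderiv_fun_add ((hu.at_target he hy).differentiableAt (by simp))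
      ((hv.at_target he hy).differentiableAt (by simp))
  rw [Filter.EventuallyEq.fderiv_eq h1]
  exact fderiv_fun_add
    (((hu _ he x hx).fderiv_right (m := 1) (by norm_num)).differentiableAt (by simp))
    (((hv _ he x hx).fderiv_right (m := 1) (by norm_num)).differentiableAt (by simp))

theorem SOp.P_smul {u : X → ℝ} (hu : CkFn E 2 u) (c : ℝ) (x : X) :
    A.P (fun x => c * u x) x = c * A.P u x := by
  have he := chart_mem_atlas E x
  have hx := mem_chart_source E x
  rw [A.eq _ ((ckFn_const c).mul hu) _ he x hx, A.eq _ hu _ he x hx, ← smul_eq_mul, ← map_smul]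
  congr 1
  have h1 : fderiv ℝ (fun y => c * u ((chartAt E x).symm y)) =
      fun y => c • fderiv ℝ (fun y => u ((chartAt E x).symm y)) y := by
    have : (fun y => c * u ((chartAt E x).symm y)) = c • fun y => u ((chartAt E x).symm y) := rfl
    rw [this, fderiv_const_smul_field c]
    rfl
  rw [h1]
  have : (fun y => c • fderiv ℝ (fun y => u ((chartAt E x).symm y)) y) =
    c • fderiv ℝ (fun y => u ((chartAt E x).symm y)) := rfl
  rw [this, fderiv_const_smul_field c]
  rfl

theorem SOp.P_const (c : ℝ) (x : X) : A.P (fun _ => c) x = 0 := by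
  have he := chart_mem_atlas E x
  have hx := mem_chart_source E x
  rw [A.eq _ (ckFn_const c) _ he x hx]
  simp

theorem SOp.P_neg {u : X → ℝ} (hu : CkFn E 2 u) (x : X) :
    A.P (fun x => - u x) x = - A.P u x := by
  have := A.P_smul hu (-1) x
  simpa using this

theorem SOp.P_sub {u v : X → ℝ} (hu : CkFn E 2 u) (hv : CkFn E 2 v) (x : X) :
    A.P (fun x => u x - v x) x = A.P u x - A.P v x := by
  have h1 := A.P_add hu hv.neg x
  rw [A.P_neg hv] at h1
  simpa [sub_eq_add_neg] using h1

/-- The operator depends only on the germ. -/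
theorem SOp.P_congr {u v : X → ℝ} (hu : CkFn E 2 u) (hv : CkFn E 2 v) {x : X}
    (h : u =ᶠ[𝓝 x] v) : A.P u x = A.P v x := by
  have he := chart_mem_atlas E x
  have hx := mem_chart_source E x
  rw [A.eq _ hu _ he x hx, A.eq _ hv _ he x hx]
  congr 1
  have h1 : (fun y => u ((chartAt E x).symm y)) =ᶠ[𝓝 (chartAt E x x)]
      fun y => v ((chartAt E x).symm y) := by
    have h2 : Tendsto (chartAt E x).symm (𝓝 (chartAt E x x)) (𝓝 x) := by
      have := (chartAt E x).continuousAt_symm ((chartAt E x).map_source hx)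
      rwa [ContinuousAt, (chartAt E x).left_inv hx] at this
    exact h2.eventually h
  exact (h1.fderiv (𝕜 := ℝ)).fderiv_eq

theorem SOp.pos' {e : OpenPartialHomeomorph X E} (he : e ∈ atlas E X) {y : E} (hy : y ∈ e.target)
    (ξ : E →L[ℝ] ℝ) : 0 ≤ A.a e y (ξ.smulRight ξ) := by
  by_cases hξ : ξ = 0
  · rw [hξ]
    have : ((0 : E →L[ℝ] ℝ).smulRight (0 : E →L[ℝ] ℝ)) = 0 := by ext; simp
    rw [this, map_zero]
  · exact (A.pos e he y hy ξ hξ).le

/-- At a local maximum `P u ≤ 0`. -/
theorem SOp.nonpos_of_isLocalMax {u : X → ℝ} (hu : CkFn E 2 u) {x : X} (h : IsLocalMax u x) :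
    A.P u x ≤ 0 := by
  have he := chart_mem_atlas E x
  have hx := mem_chart_source E x
  rw [A.eq _ hu _ he x hx]
  have := MP.op_nonpos_of_max (A.a (chartAt E x) (chartAt E x x))
    (A.pos' he ((chartAt E x).map_source hx)) 0 (MP.isLocalMax_chart hx h) (hu _ he x hx)
  simpa using this

/-- Openness of the contact set. -/
theorem SOp.open_contact {u : X → ℝ} (hu : CkFn E 2 u) {x : X}
    (hP : ∀ᶠ z in 𝓝 x, 0 ≤ A.P u z) (h : IsLocalMax u x) : ∀ᶠ z in 𝓝 x, u z = u x := by
  have he := chart_mem_atlas E x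
  have hx := mem_chart_source E x
  set e := chartAt E x with hedef
  have hsymm : Tendsto e.symm (𝓝 (e x)) (𝓝 x) := by
    have := e.continuousAt_symm (e.map_source hx)
    rwa [ContinuousAt, e.left_inv hx] at this
  have h0 : ∀ᶠ y in 𝓝 (e x), y ∈ e.target := e.open_target.mem_nhds (e.map_source hx)
  have h1 : ∀ᶠ y in 𝓝 (e x), y ∈ e.target ∧ 0 ≤ A.P u (e.symm y) ∧ u (e.symm y) ≤ u x :=
    h0.and ((hsymm.eventually hP).and (hsymm.eventually h))
  obtain ⟨O, hOs, hO, hxO⟩ := _root_.mem_nhds_iff.1 h1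
  have hw : ∀ y ∈ O, ContDiffAt ℝ 2 (fun y => u (e.symm y)) y := fun y hy =>
    hu.at_target he (hOs hy).1
  have key := smp_open (u := fun y => u (e.symm y)) hO hw (a := A.a e) (b := fun _ => 0)
    (fun y hy => (A.smooth e he y (hOs hy).1).continuousAt) (fun y hy => continuousAt_const)
    (fun y hy => A.pos e he y (hOs hy).1) (fun y hy => by
      have h3 := A.eq u hu e he (e.symm y) (e.map_target (hOs hy).1)
      rw [e.right_inv (hOs hy).1] at h3
      have h4 := (hOs hy).2.1
      rw [h3] at h4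
      simpa using h4) (M := u x) (fun y hy => (hOs hy).2.2) hxO (by rw [e.left_inv hx])
  have h5 : Tendsto e (𝓝 x) (𝓝 (e x)) := e.continuousAt hx
  filter_upwards [h5.eventually key, e.open_source.mem_nhds hx] with z hz hzs
  rwa [e.left_inv hzs] at hz

/-- **Strong maximum principle** on a connected manifold: a function with `P u ≥ 0` which attains
its maximum is constant. -/
theorem SOp.const_of_max [PreconnectedSpace X] {u : X → ℝ} (hu : CkFn E 2 u)
    (hP : ∀ x, 0 ≤ A.P u x) {x0 : X} (h : ∀ x, u x ≤ u x0) (x : X) : u x = u x0 := by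
  have hc : Continuous u := ckFn_continuous hu
  have hcl : IsClopen {x | u x = u x0} := by
    refine ⟨isClosed_eq hc continuous_const, isOpen_iff_mem_nhds.2 fun y hy => ?_⟩
    have hy' : u y = u x0 := hy
    have := A.open_contact hu (Eventually.of_forall hP)
      (Eventually.of_forall (f := 𝓝 y) fun z => (h z).trans hy'.ge)
    filter_upwards [this] with z hz
    exact hz.trans hy'
  have := hcl.eq_univ ⟨x0, rfl⟩
  have h2 : x ∈ {x | u x = u x0} := by rw [this]; exact mem_univ x
  exact h2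

/-- On a compact connected manifold `P u ≥ 0` implies that `u` is constant. -/
theorem SOp.const_of_nonneg [CompactSpace X] [PreconnectedSpace X] {u : X → ℝ} (hu : CkFn E 2 u)
    (hP : ∀ x, 0 ≤ A.P u x) (x y : X) : u x = u y := by
  have hne : (univ : Set X).Nonempty := ⟨x, mem_univ x⟩
  obtain ⟨x0, -, hx0⟩ := isCompact_univ.exists_isMaxOn hne (ckFn_continuous hu).continuousOn
  have h : ∀ z, u z ≤ u x0 := fun z => hx0 (mem_univ z)
  rw [A.const_of_max hu hP h x, A.const_of_max hu hP h y]

end general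

end Vale.Agent.P267.H661
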