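import Mathlib.Analysis.Calculus.ContDiff.RCLike
import Mathlib.Analysis.Calculus.ContDiff.Operations
import Mathlib.Analysis.InnerProductSpace.Calculus
import Mathlib.Analysis.InnerProductSpace.EuclideanDist
import Mathlib.Analysis.SpecialFunctions.ExpDeriv
import Mathlib.Analysis.SpecialFunctions.Exp
import Vale.Agent.P272.K.MP.Local

/-! The strong maximum principle for second order operators without zeroth order term
on an open set of a finite dimensional real space (package GAUD of P267, helper661). -/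

open scoped Topology ContDiff
open Filter Set Metric

set_option maxSynthPendingDepth 3

noncomputable section

namespace Vale.Agent.P267.H661

variable {E : Type*} [NormedAddCommGroup E] [NormedSpace ℝ E]

/-- second derivative of a composition with a real function -/
theorem fderiv2_comp_real {φ : ℝ → ℝ} {ρ : E → ℝ} (hφ : ContDiff ℝ 2 φ) (hρ : ContDiff ℝ 2 ρ)
    (y : E) : fderiv ℝ (fderiv ℝ fun y => φ (ρ y)) y =
      (deriv (deriv φ) (ρ y)) • ((fderiv ℝ ρ y).smulRight (fderiv ℝ ρ y)) +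
        (deriv φ (ρ y)) • fderiv ℝ (fderiv ℝ ρ) y := by
  have h1 : fderiv ℝ (fun y => φ (ρ y)) = fun y => (deriv φ (ρ y)) • fderiv ℝ ρ y := by
    funext z
    have hφ1 : HasDerivAt φ (deriv φ (ρ z)) (ρ z) :=
      ((hφ.differentiable (by simp)) (ρ z)).hasDerivAt
    have hρ1 : HasFDerivAt ρ (fderiv ℝ ρ z) z := ((hρ.differentiable (by simp)) z).hasFDerivAt
    exact (hφ1.comp_hasFDerivAt z hρ1).fderiv
  have hd : ContDiff ℝ 1 (deriv φ) := by
    have h2 : ContDiff ℝ (1 + 1) φ := by simpa [one_add_one_eq_two] using hφ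
    exact (contDiff_succ_iff_deriv.1 h2).2.2
  have h2 : HasFDerivAt (fun y => deriv φ (ρ y)) (deriv (deriv φ) (ρ y) • fderiv ℝ ρ y) y :=
    (((hd.differentiable (by simp)) (ρ y)).hasDerivAt).comp_hasFDerivAt y
      ((hρ.differentiable (by simp)) y).hasFDerivAt
  have h3 : HasFDerivAt (fderiv ℝ ρ) (fderiv ℝ (fderiv ℝ ρ) y) y :=
    (((hρ.fderiv_right (m := 1) (by norm_num)).differentiable (by simp)) y).hasFDerivAt
  rw [h1]
  have h4 := h2.smul h3
  have h5 : HasFDerivAt (fun y => deriv φ (ρ y) • fderiv ℝ ρ y) _ y := h4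
  rw [h5.fderiv]
  ext v w
  simp [add_comm, mul_comm, mul_left_comm]

section
variable [FiniteDimensional ℝ E]

/-- the auxiliary function `|y - x|² + |y - z|²` -/
def rho (x z y : E) : ℝ := ‖toEuclidean (y - x)‖ ^ 2 + ‖toEuclidean (y - z)‖ ^ 2

theorem rho_contDiff (x z : E) {n : WithTop ℕ∞} : ContDiff ℝ n (rho x z) := by
  unfold rho
  have h : ∀ c : E, ContDiff ℝ n fun y : E => ‖toEuclidean (y - c)‖ ^ 2 := fun c =>
    ((toEuclidean (E := E)).contDiff.comp (contDiff_id.sub contDiff_const)).norm_sq ℝ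
  exact (h x).add (h z)

theorem rho_fderiv (x z : E) (hxz : x ≠ z) : fderiv ℝ (rho x z) z ≠ 0 := by
  intro h
  have h1 : HasDerivAt (fun t : ℝ => rho x z (z + t • (z - x))) 0 0 := by
    have h2 : HasFDerivAt (rho x z) (fderiv ℝ (rho x z) z) (z + (0 : ℝ) • (z - x)) := by
      simpa using ((rho_contDiff x z (n := 1)).differentiable (by simp) z).hasFDerivAt
    have h3 : HasDerivAt (fun t : ℝ => z + t • (z - x)) (z - x) 0 := by
      simpa using ((hasDerivAt_id (0 : ℝ)).smul_const (z - x)).const_add z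
    have h4 := h2.comp_hasDerivAt (0 : ℝ) h3
    rw [h] at h4
    have h5 : HasDerivAt (fun t : ℝ => rho x z (z + t • (z - x)))
      ((0 : E →L[ℝ] ℝ) (z - x)) 0 := h4
    simpa using h5
  have h5 : (fun t : ℝ => rho x z (z + t • (z - x))) =
      fun t => ((1 + t) ^ 2 + t ^ 2) * ‖toEuclidean (z - x)‖ ^ 2 := by
    funext t
    unfold rho
    have e1 : z + t • (z - x) - x = (1 + t) • (z - x) := by
      rw [add_smul, one_smul]; abel
    have e2 : z + t • (z - x) - z = t • (z - x) := by abel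
    rw [e1, e2, map_smul, map_smul, norm_smul, norm_smul, mul_pow, mul_pow, Real.norm_eq_abs,
      Real.norm_eq_abs, sq_abs, sq_abs]
    ring
  rw [h5] at h1
  have h6 : HasDerivAt (fun t : ℝ => ((1 + t) ^ 2 + t ^ 2) * ‖toEuclidean (z - x)‖ ^ 2)
      (2 * ‖toEuclidean (z - x)‖ ^ 2) 0 := by
    have h7 : HasDerivAt (fun t : ℝ => (1 + t) ^ 2 + t ^ 2) 2 0 := by
      have h71 : HasDerivAt (fun t : ℝ => 1 + t) 1 0 := (hasDerivAt_id (0 : ℝ)).const_add 1
      have h72 : HasDerivAt (fun t : ℝ => (1 + t) ^ 2) 2 0 := by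
        have h73 : HasDerivAt (fun t : ℝ => (1 + t) ^ 2) _ 0 := h71.pow 2
        simpa using h73
      have h74 : HasDerivAt (fun t : ℝ => t ^ 2) 0 0 := by
        have h75 : HasDerivAt (fun t : ℝ => t ^ 2) _ 0 := (hasDerivAt_id (0 : ℝ)).pow 2
        simpa using h75
      have h76 : HasDerivAt (fun t : ℝ => (1 + t) ^ 2 + t ^ 2) _ 0 := h72.add h74
      simpa using h76
    exact h7.mul_const _
  have h8 := h1.unique h6
  have h9 : toEuclidean (z - x) ≠ 0 := by
    intro h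
    apply hxz
    have := (toEuclidean (E := E)).map_eq_zero_iff.1 h
    exact (sub_eq_zero.1 this).symm
  have h10 : 0 < ‖toEuclidean (z - x)‖ ^ 2 := by positivity
  linarith

/-- Openness of the set where the maximum is attained. -/
theorem smp_open {O : Set E} (hO : IsOpen O) {u : E → ℝ} (hu : ∀ y ∈ O, ContDiffAt ℝ 2 u y)
    {a : E → (E →L[ℝ] E →L[ℝ] ℝ) →L[ℝ] ℝ} {b : E → (E →L[ℝ] ℝ) →L[ℝ] ℝ}
    (ha : ∀ y ∈ O, ContinuousAt a y) (hb : ∀ y ∈ O, ContinuousAt b y)
    (hpos : ∀ y ∈ O, ∀ ξ : E →L[ℝ] ℝ, ξ ≠ 0 → 0 < a y (ξ.smulRight ξ))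
    (hP : ∀ y ∈ O, 0 ≤ a y (fderiv ℝ (fderiv ℝ u) y) + b y (fderiv ℝ u y)) {M : ℝ}
    (hM : ∀ y ∈ O, u y ≤ M) {x1 : E} (hx1 : x1 ∈ O) (h1 : u x1 = M) :
    ∀ᶠ y in 𝓝 x1, u y = M := by
  obtain ⟨r, hr, hrO⟩ := (Euclidean.nhds_basis_closedBall (x := x1)).mem_iff.1 (hO.mem_nhds hx1)
  have hnb : Euclidean.ball x1 (r / 2) ∈ 𝓝 x1 := Euclidean.ball_mem_nhds (by positivity)
  filter_upwards [hnb] with x2 hx2
  by_contra hne
  -- the nearest point of the contact set
  have hx2' : ‖toEuclidean (x2 - x1)‖ < r / 2 := by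
    have : dist (toEuclidean x2) (toEuclidean x1) < r / 2 := hx2
    rwa [dist_eq_norm, ← map_sub] at this
  let Z : Set E := {y | y ∈ Euclidean.closedBall x1 r ∧ u y = M}
  have hcb : ∀ y, y ∈ Euclidean.closedBall x1 r ↔ ‖toEuclidean (y - x1)‖ ≤ r := by
    intro y
    show dist (toEuclidean y) (toEuclidean x1) ≤ r ↔ _
    rw [dist_eq_norm, ← map_sub]
  have hZc : IsCompact Z := by
    have h2 : IsCompact (Euclidean.closedBall x1 r) := Euclidean.isCompact_closedBall
    have h3 : ContinuousOn u (Euclidean.closedBall x1 r) := fun y hy =>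
      (hu y (hrO hy)).continuousAt.continuousWithinAt
    have h4 : Z = Euclidean.closedBall x1 r ∩ u ⁻¹' {M} := rfl
    rw [h4]
    exact h2.of_isClosed_subset (h3.preimage_isClosed_of_isClosed h2.isClosed isClosed_singleton)
      inter_subset_left
  have hcont : Continuous fun y : E => ‖toEuclidean (y - x2)‖ :=
    ((toEuclidean (E := E)).continuous.comp (continuous_id.sub continuous_const)).norm
  have hx1Z : x1 ∈ Z := ⟨by rw [hcb]; simpa using hr.le, h1⟩
  obtain ⟨z, hz, hzmin⟩ := hZc.exists_isMinOn ⟨x1, hx1Z⟩ hcont.continuousOn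
  have hzmin' : ∀ y ∈ Z, ‖toEuclidean (z - x2)‖ ≤ ‖toEuclidean (y - x2)‖ := fun y hy => hzmin hy
  have hzr : ‖toEuclidean (z - x1)‖ < r := by
    have h2 := hzmin' x1 hx1Z
    have h3 : toEuclidean (z - x1) = toEuclidean (z - x2) + toEuclidean (x2 - x1) := by
      rw [← map_add]; congr 1; abel
    have h4 : ‖toEuclidean (x1 - x2)‖ = ‖toEuclidean (x2 - x1)‖ := by
      rw [← norm_neg, ← map_neg]; congr 2; abel
    rw [h3]
    calc _ ≤ ‖toEuclidean (z - x2)‖ + ‖toEuclidean (x2 - x1)‖ := norm_add_le _ _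
      _ < r := by rw [h4] at h2; linarith
  have hzO : z ∈ O := hrO hz.1
  have hx2z : x2 ≠ z := fun h => hne (h ▸ hz.2)
  -- the barrier
  have hρ2 := rho_contDiff x2 z (n := 2)
  set ρ := rho x2 z with hρ
  have hρz : ρ z = ‖toEuclidean (z - x2)‖ ^ 2 := by simp [hρ, rho]
  have hρZ : ∀ y ∈ Z, y ≠ z → ρ z < ρ y := by
    intro y hy hyz
    rw [hρz, hρ, rho]
    have h2 := hzmin' y hy
    have h3 : toEuclidean (y - z) ≠ 0 := by
      intro h
      exact hyz (sub_eq_zero.1 ((toEuclidean (E := E)).map_eq_zero_iff.1 h))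
    have h4 : 0 < ‖toEuclidean (y - z)‖ ^ 2 := by positivity
    have h5 : ‖toEuclidean (z - x2)‖ ^ 2 ≤ ‖toEuclidean (y - x2)‖ ^ 2 := by gcongr
    linarith
  have hξ : fderiv ℝ ρ z ≠ 0 := rho_fderiv x2 z hx2z
  set A := a z ((fderiv ℝ ρ z).smulRight (fderiv ℝ ρ z)) with hA
  have hApos : 0 < A := hpos z hzO _ hξ
  set B := a z (fderiv ℝ (fderiv ℝ ρ) z) + b z (fderiv ℝ ρ z) with hB
  obtain ⟨k, hk0, hk⟩ : ∃ k : ℝ, 0 < k ∧ 0 < k ^ 2 * A - k * B := by
    refine ⟨(|B| + 1) / A, by positivity, ?_⟩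
    have h2 : ((|B| + 1) / A) ^ 2 * A - (|B| + 1) / A * B = (|B| + 1) / A * (|B| + 1 - B) := by
      field_simp
    rw [h2]
    have := le_abs_self B
    have h3 : 0 < |B| + 1 - B := by linarith
    positivity
  set φ : ℝ → ℝ := fun s => Real.exp (-k * (s - ρ z)) - 1 with hφdef
  have hφ : ContDiff ℝ 2 φ := by
    rw [hφdef]
    fun_prop
  have hd1 : deriv φ = fun s => -k * Real.exp (-k * (s - ρ z)) := by
    funext s
    have : HasDerivAt φ (Real.exp (-k * (s - ρ z)) * (-k * 1)) s :=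
      ((((hasDerivAt_id s).sub_const (ρ z)).const_mul (-k)).exp).sub_const 1
    rw [this.deriv]; ring
  have hd2 : deriv (deriv φ) = fun s => k ^ 2 * Real.exp (-k * (s - ρ z)) := by
    rw [hd1]
    funext s
    have : HasDerivAt (fun s : ℝ => -k * Real.exp (-k * (s - ρ z)))
        (-k * (Real.exp (-k * (s - ρ z)) * (-k * 1))) s :=
      ((((hasDerivAt_id s).sub_const (ρ z)).const_mul (-k)).exp).const_mul (-k)
    rw [this.deriv]; ring
  set v : E → ℝ := fun y => φ (ρ y) with hv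
  have hvC : ContDiff ℝ 2 v := hφ.comp hρ2
  have hvz : v z = 0 := by simp [hv, hφdef]
  have hvneg : ∀ y ∈ Z, y ≠ z → v y < 0 := by
    intro y hy hyz
    have := hρZ y hy hyz
    simp only [hv, hφdef]
    have h2 : Real.exp (-k * (ρ y - ρ z)) < 1 := by
      rw [Real.exp_lt_one_iff]; nlinarith
    linarith
  have hPv : 0 < a z (fderiv ℝ (fderiv ℝ v) z) + b z (fderiv ℝ v z) := by
    have e1 : fderiv ℝ (fderiv ℝ v) z = (k ^ 2) • ((fderiv ℝ ρ z).smulRight (fderiv ℝ ρ z)) +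
        (-k) • fderiv ℝ (fderiv ℝ ρ) z := by
      rw [hv, fderiv2_comp_real hφ hρ2, hd2, hd1]; simp
    have e2 : fderiv ℝ v z = (-k) • fderiv ℝ ρ z := by
      have hφ1 : HasDerivAt φ (deriv φ (ρ z)) (ρ z) :=
        ((hφ.differentiable (by simp)) (ρ z)).hasDerivAt
      have hρ1 : HasFDerivAt ρ (fderiv ℝ ρ z) z := ((hρ2.differentiable (by simp)) z).hasFDerivAt
      have h9 : HasFDerivAt (fun y => φ (ρ y)) _ z := hφ1.comp_hasFDerivAt z hρ1
      rw [hv, h9.fderiv, hd1]; simp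
    rw [e1, e2, map_add, map_smul, map_smul, map_smul, ← hA]
    simp only [smul_eq_mul]
    calc 0 < k ^ 2 * A - k * B := hk
      _ = _ := by rw [hB]; ring
  have hcv2 : Continuous (fderiv ℝ (fderiv ℝ v)) :=
    ((hvC.fderiv_right (m := 1) (by norm_num)).fderiv_right (m := 0) (by norm_num)).continuous
  have hcv1 : Continuous (fderiv ℝ v) := (hvC.fderiv_right (m := 1) (by norm_num)).continuous
  have hev : ∀ᶠ y in 𝓝 z, 0 < a y (fderiv ℝ (fderiv ℝ v) y) + b y (fderiv ℝ v y) := by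
    have h2 : ContinuousAt (fun y => a y (fderiv ℝ (fderiv ℝ v) y) + b y (fderiv ℝ v y)) z :=
      ((ha z hzO).clm_apply hcv2.continuousAt).add ((hb z hzO).clm_apply hcv1.continuousAt)
    exact h2.eventually (lt_mem_nhds hPv)
  have hevr : ∀ᶠ y in 𝓝 z, ‖toEuclidean (y - x1)‖ ≤ r := by
    have h2 : Continuous fun y : E => ‖toEuclidean (y - x1)‖ :=
      ((toEuclidean (E := E)).continuous.comp (continuous_id.sub continuous_const)).norm
    exact (h2.continuousAt.eventually (gt_mem_nhds hzr)).mono fun y hy => hy.le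
  obtain ⟨δ, hδ, hδs⟩ := Metric.nhds_basis_closedBall.mem_iff.1 (hev.and hevr)
  have hKc : IsCompact (closedBall z δ) := isCompact_closedBall z δ
  have hKO : ∀ y ∈ closedBall z δ, y ∈ O := fun y hy => hrO ((hcb y).2 (hδs hy).2)
  have huK : ContinuousOn u (closedBall z δ) := fun y hy =>
    (hu y (hKO y hy)).continuousAt.continuousWithinAt
  -- the choice of ε
  obtain ⟨ε, hε, hεB⟩ : ∃ ε : ℝ, 0 < ε ∧ ∀ y ∈ sphere z δ, u y + ε * v y < M := by
    obtain ⟨H, hH⟩ : ∃ H : ℝ, ∀ y ∈ closedBall z δ, v y ≤ H := by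
      obtain ⟨H, hH⟩ := (hKc.image_of_continuousOn hvC.continuous.continuousOn).bddAbove
      exact ⟨H, fun y hy => hH (mem_image_of_mem _ hy)⟩
    have hSc : IsCompact (sphere z δ ∩ {y | 0 ≤ v y}) :=
      (isCompact_sphere z δ).inter_right (isClosed_le continuous_const hvC.continuous)
    have hlt : ∀ y ∈ sphere z δ ∩ {y | 0 ≤ v y}, u y < M := by
      rintro y ⟨hy, hvy⟩
      have hyK := sphere_subset_closedBall hy
      refine lt_of_le_of_ne (hM y (hKO y hyK)) fun h => ?_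
      have hyz : y ≠ z := by
        rintro rfl
        rw [mem_sphere, dist_self] at hy
        exact hδ.ne hy
      have := hvneg y ⟨(hcb y).2 (hδs hyK).2, h⟩ hyz
      exact absurd hvy (not_le.2 this)
    obtain ⟨η, hη, hη2⟩ : ∃ η : ℝ, 0 < η ∧ ∀ y ∈ sphere z δ ∩ {y | 0 ≤ v y}, u y ≤ M - η := by
      rcases (sphere z δ ∩ {y | 0 ≤ v y}).eq_empty_or_nonempty with h | h
      · exact ⟨1, one_pos, fun y hy => by rw [h] at hy; exact absurd hy (notMem_empty y)⟩
      · obtain ⟨y0, hy0, hmax⟩ := hSc.exists_isMaxOn h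
          (huK.mono (inter_subset_left.trans sphere_subset_closedBall))
        refine ⟨M - u y0, by have := hlt y0 hy0; linarith, fun y hy => ?_⟩
        have : u y ≤ u y0 := hmax hy
        linarith
    refine ⟨η / (2 * (|H| + 1)), by positivity, fun y hy => ?_⟩
    have hyK := sphere_subset_closedBall hy
    rcases le_or_gt 0 (v y) with h | h
    · have h2 := hη2 y ⟨hy, h⟩
      have h3 : v y ≤ |H| + 1 := (hH y hyK).trans (by linarith [le_abs_self H])
      have h4 : η / (2 * (|H| + 1)) * v y ≤ η / 2 := by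
        have h5 : η / (2 * (|H| + 1)) * (|H| + 1) = η / 2 := by
          have : (|H| + 1) ≠ 0 := by positivity
          field_simp
        rw [← h5]
        exact mul_le_mul_of_nonneg_left h3 (by positivity)
      linarith
    · have h2 := hM y (hKO y hyK)
      have h3 : 0 < η / (2 * (|H| + 1)) := by positivity
      nlinarith
  -- the interior maximum
  have hwc : ContinuousOn (fun y => u y + ε * v y) (closedBall z δ) :=
    huK.add (continuousOn_const.mul hvC.continuous.continuousOn)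
  obtain ⟨y0, hy0, hmax⟩ := hKc.exists_isMaxOn ⟨z, mem_closedBall_self hδ.le⟩ hwc
  have hge : M ≤ u y0 + ε * v y0 := by
    have : u z + ε * v z ≤ u y0 + ε * v y0 := hmax (mem_closedBall_self hδ.le)
    rw [hz.2, hvz] at this
    linarith
  have hyb : y0 ∈ ball z δ := by
    rw [mem_ball]
    refine lt_of_le_of_ne hy0 fun h => ?_
    have := hεB y0 h
    linarith
  have hloc : IsLocalMax (fun y => u y + ε * v y) y0 := by
    filter_upwards [isOpen_ball.mem_nhds hyb] with y hy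
    exact hmax (ball_subset_closedBall hy)
  have hy0O := hKO y0 hy0
  have hu2 := hu y0 hy0O
  have hw2 : ContDiffAt ℝ 2 (fun y => u y + ε * v y) y0 :=
    hu2.add (contDiffAt_const.mul hvC.contDiffAt)
  have hfin := Vale.Agent.P272.K.MP.op_nonpos_of_max (a y0) (fun ξ => by
    by_cases hξ : ξ = 0
    · rw [hξ]
      have : ((0 : E →L[ℝ] ℝ).smulRight (0 : E →L[ℝ] ℝ)) = 0 := by ext; simp
      rw [this, map_zero]
    · exact (hpos y0 hy0O ξ hξ).le) (b y0) hloc hw2
  have hder : ∀ᶠ y in 𝓝 y0, fderiv ℝ (fun y => u y + ε * v y) y =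
      fderiv ℝ u y + ε • fderiv ℝ v y := by
    filter_upwards [hO.mem_nhds hy0O] with y hy
    have h2 : DifferentiableAt ℝ u y := (hu y hy).differentiableAt (by simp)
    have h3 : DifferentiableAt ℝ v y := hvC.differentiable (by simp) y
    rw [fderiv_fun_add h2 (h3.const_mul ε), fderiv_const_mul h3]
  have hder2 : fderiv ℝ (fderiv ℝ (fun y => u y + ε * v y)) y0 =
      fderiv ℝ (fderiv ℝ u) y0 + ε • fderiv ℝ (fderiv ℝ v) y0 := by
    have h2 : DifferentiableAt ℝ (fderiv ℝ u) y0 :=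
      (hu2.fderiv_right (m := 1) (by norm_num)).differentiableAt (by simp)
    have h3 : DifferentiableAt ℝ (fderiv ℝ v) y0 :=
      (hvC.fderiv_right (m := 1) (by norm_num)).differentiable (by simp) y0
    rw [Filter.EventuallyEq.fderiv_eq hder]
    have h4 : HasFDerivAt (fun y => fderiv ℝ u y + ε • fderiv ℝ v y)
        (fderiv ℝ (fderiv ℝ u) y0 + ε • fderiv ℝ (fderiv ℝ v) y0) y0 :=
      h2.hasFDerivAt.add (h3.hasFDerivAt.const_smul ε)
    exact h4.fderiv
  rw [hder.self_of_nhds, hder2, map_add, map_add, map_smul, map_smul] at hfin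
  have h5 := hP y0 hy0O
  have h6 := (hδs hy0).1
  simp only [smul_eq_mul] at hfin
  have h7 := mul_pos hε h6
  linarith

/-- **Strong maximum principle** on a connected open set. -/
theorem smp_local {O : Set E} (hO : IsOpen O) (hOc : IsPreconnected O) {u : E → ℝ}
    (hu : ∀ y ∈ O, ContDiffAt ℝ 2 u y)
    {a : E → (E →L[ℝ] E →L[ℝ] ℝ) →L[ℝ] ℝ} {b : E → (E →L[ℝ] ℝ) →L[ℝ] ℝ}
    (ha : ∀ y ∈ O, ContinuousAt a y) (hb : ∀ y ∈ O, ContinuousAt b y)
    (hpos : ∀ y ∈ O, ∀ ξ : E →L[ℝ] ℝ, ξ ≠ 0 → 0 < a y (ξ.smulRight ξ))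
    (hP : ∀ y ∈ O, 0 ≤ a y (fderiv ℝ (fderiv ℝ u) y) + b y (fderiv ℝ u y)) {M : ℝ}
    (hM : ∀ y ∈ O, u y ≤ M) {x1 : E} (hx1 : x1 ∈ O) (h1 : u x1 = M) :
    ∀ y ∈ O, u y = M := by
  have h2 : O ⊆ {y | u y = M} := by
    have hop : ∀ y ∈ O, u y = M → ∀ᶠ z in 𝓝 y, u z = M := fun y hy h =>
      smp_open hO hu ha hb hpos hP hM hy h
    let U : Set E := {y | y ∈ O ∧ u y = M}
    let V : Set E := {y | y ∈ O ∧ u y < M}
    have hU : IsOpen U := by
      rw [isOpen_iff_mem_nhds]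
      rintro y ⟨hy, h⟩
      filter_upwards [hO.mem_nhds hy, hop y hy h] with z hz hz' using ⟨hz, hz'⟩
    have hV : IsOpen V := by
      rw [isOpen_iff_mem_nhds]
      rintro y ⟨hy, h⟩
      filter_upwards [hO.mem_nhds hy, (hu y hy).continuousAt.eventually (gt_mem_nhds h)] with z hz
        hz' using ⟨hz, hz'⟩
    intro y hy
    by_contra hne
    have hyV : y ∈ V := ⟨hy, lt_of_le_of_ne (hM y hy) hne⟩
    obtain ⟨z, hz, hzU, hzV⟩ := hOc U V hU hV
      (fun z hz => by
        rcases (hM z hz).eq_or_lt with h | h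
        · exact Or.inl ⟨hz, h⟩
        · exact Or.inr ⟨hz, h⟩)
      ⟨x1, hx1, hx1, h1⟩ ⟨y, hy, hyV⟩
    exact hzV.2.ne hzU.2
  exact fun y hy => h2 hy

end

end Vale.Agent.P267.H661
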