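import Vale.Agent.P267.H661.Scal

/-! Solvability of `P u = g - c` on a compact connected manifold (package GAUD of P267). -/

open scoped Topology ContDiff NNReal
open Filter Set Metric

set_option maxSynthPendingDepth 3
set_option linter.unusedSectionVars false

noncomputable section

namespace Vale.Agent.P267.H661

open Vale.Agent.P272.K Vale.Agent.P272.K.LIN

section holder

variable {E : Type*} [NormedAddCommGroup E] [NormedSpace ℝ E] {X : Type*} [TopologicalSpace X]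
  [ChartedSpace E X] [FiniteDimensional ℝ E] (A : SOp E X) (𝒞 : Cov E X)
  [CompactSpace X] [T2Space X] [RSm E X] {α : ℝ} (h0 : 0 < α) (h1 : α ≤ 1)

/-- the cut off coefficient in the `i`-th chart -/
def SOp.coef (i : Fin 𝒞.N) : Hol (𝒞.w α) ((E →L[ℝ] E →L[ℝ] ℝ) →L[ℝ] ℝ) :=
  N.cutH 𝒞 h0 h1 i (A.a (𝒞.e i)) (A.smooth _ (𝒞.mem i))

/-- bilinear forms -/
abbrev BL (E : Type*) [NormedAddCommGroup E] [NormedSpace ℝ E] : Type _ := E →L[ℝ] E →L[ℝ] ℝ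

/-- the second derivative part of a jet -/
def jet2 : Jet E →L[ℝ] BL E :=
  (ContinuousLinearMap.snd ℝ (E →L[ℝ] ℝ) (BL E)).comp
    (ContinuousLinearMap.snd ℝ ℝ ((E →L[ℝ] ℝ) × BL E))

/-- the evaluation pairing -/
def evalPair : (BL E →L[ℝ] ℝ) →L[ℝ] BL E →L[ℝ] ℝ := ContinuousLinearMap.id ℝ (BL E →L[ℝ] ℝ)

/-- scalar multiplication -/
def lsm : ℝ →L[ℝ] (BL E →L[ℝ] ℝ) →L[ℝ] (BL E →L[ℝ] ℝ) :=
  ContinuousLinearMap.lsmul (E := (BL E →L[ℝ] ℝ)) ℝ ℝ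

/-- the coefficient multiplied by the partition of unity -/
def SOp.coef' (i : Fin 𝒞.N) : Hol (𝒞.w α) (BL E →L[ℝ] ℝ) :=
  Hol.bil (lsm (E := E)) (N.puH 𝒞 h0 h1 i) (A.coef 𝒞 h0 h1 i)

/-- the `i`-th part of the operator -/
def SOp.Li (i : Fin 𝒞.N) : 𝒞.C2 α →L[ℝ] Hol (𝒞.w α) ℝ :=
  ((Hol.bilL (w := 𝒞.w α) (evalPair (E := E)) (A.coef' 𝒞 h0 h1 i)).comp
    (Hol.map (w := 𝒞.w α) (jet2 (E := E)))).comp (𝒞.J α i)

theorem SOp.Li_apply (i : Fin 𝒞.N) (v : 𝒞.C2 α) (x : X) :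
    A.Li 𝒞 h0 h1 i v x = N.pu 𝒞 i x * A.P (𝒞.fn v) x := by
  have h : A.Li 𝒞 h0 h1 i v x = (N.pu 𝒞 i x • (𝒞.η i x • A.a (𝒞.e i) (𝒞.e i x)))
    ((𝒞.J α i v x).2.2) := rfl
  rw [h]
  by_cases hp : N.pu 𝒞 i x = 0
  · rw [hp]; simp
  · obtain ⟨hx, hb⟩ := N.pu_ne_zero 𝒞 hp
    rw [𝒞.J_apply, 𝒞.Jf_of_ball hx hb, 𝒞.η_eq_one hx (ball_subset_closedBall hb), one_smul,
      A.eq _ (𝒞.fn_ck v) _ (𝒞.mem i) x hx]
    rfl

/-- The operator `P` from `C^{2,α}(X)` to `C^α(X)`. -/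
def SOp.L : 𝒞.C2 α →L[ℝ] Hol (𝒞.w α) ℝ := ∑ i, A.Li 𝒞 h0 h1 i

theorem SOp.L_apply (v : 𝒞.C2 α) (x : X) : A.L 𝒞 h0 h1 v x = A.P (𝒞.fn v) x := by
  have hs : A.L 𝒞 h0 h1 v x = ∑ i, N.pu 𝒞 i x * A.P (𝒞.fn v) x := by
    rw [SOp.L, _root_.sum_apply, Hol.sum_apply]
    exact Finset.sum_congr rfl fun i _ => A.Li_apply 𝒞 h0 h1 i v x
  rw [hs, ← Finset.sum_mul, N.pu_sum, one_mul]

theorem SOp.ell : Cov.Ell 𝒞 α (A.L 𝒞 h0 h1) (fun i => A.a (𝒞.e i)) (fun _ _ => 0) where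
  hola i := by
    have hr := 𝒞.r_pos i
    have hsub : closedBall (𝒞.c i) (2 * 𝒞.r i) ⊆ (𝒞.e i).target :=
      (closedBall_subset_closedBall (by linarith)).trans (𝒞.sub i)
    obtain ⟨C, hC0, hC⟩ := 𝒞.symm_lip (𝒞.mem i) (isCompact_closedBall (𝒞.c i) (2 * 𝒞.r i)) hsub
    have hval : ∀ y ∈ ball (𝒞.c i) (2 * 𝒞.r i), A.coef 𝒞 h0 h1 i ((𝒞.e i).symm y) =
        A.a (𝒞.e i) y := by
      intro y hy
      obtain ⟨h2, h3, h4⟩ := 𝒞.η_symm hy
      rw [SOp.coef, N.cutH_apply, h4, h3, one_smul]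
    refine ⟨(A.coef 𝒞 h0 h1 i).N1 * C ^ α, fun y hy y' hy' => ?_⟩
    rw [← hval y hy, ← hval y' hy']
    refine ((A.coef 𝒞 h0 h1 i).le_N1 _ _).trans ?_
    rw [𝒞.coe_w, mul_assoc]
    refine mul_le_mul_of_nonneg_left ?_ (Hol.N1_nonneg _)
    rw [← Real.mul_rpow hC0 (norm_nonneg _)]
    exact Real.rpow_le_rpow (𝒞.d_nonneg _ _)
      (hC y (ball_subset_closedBall hy) y' (ball_subset_closedBall hy')) h0.le
  holb i := ⟨0, fun y _ y' _ => by simp⟩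
  pos i y hy ξ hξ := A.pos _ (𝒞.mem i) y (𝒞.sub' (by have := 𝒞.r_pos i; linarith) hy) ξ hξ
  eq v i x hx hb := by
    rw [A.L_apply, A.eq _ (𝒞.fn_ck v) _ (𝒞.mem i) x hx]
    simp

include h0 in
/-- The inclusion `C^{2,α}(X) → C^α(X)` is compact. -/
theorem isCompactOperator_incl (h1' : α < 1) : IsCompactOperator (𝒞.incl α) := by
  have hcs := 𝒞.completeSpace_C2 h0
  show IsCompactOperator ((𝒞.incl α : 𝒞.C2 α →ₗ[ℝ] Hol (𝒞.w α) ℝ))
  rw [isCompactOperator_iff_isCompact_closure_image_closedBall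
    (𝒞.incl α : 𝒞.C2 α →ₗ[ℝ] Hol (𝒞.w α) ℝ) one_pos]
  refine TotallyBounded.isCompact_of_isClosed ?_ isClosed_closure
  refine TotallyBounded.closure ?_
  rw [Metric.totallyBounded_iff]
  intro ε hε
  -- interpolation
  obtain ⟨C, hC⟩ := 𝒞.incl_interp (α := α) h0 h1' (ε / 8) (by positivity)
  obtain ⟨C', hC'0, hC'⟩ : ∃ C' : ℝ, 0 < C' ∧ ∀ v : 𝒞.C2 α,
      ‖𝒞.incl α v‖ ≤ ε / 8 * ‖v‖ + C' * (𝒞.incl α v).N0 := by
    refine ⟨|C| + 1, by positivity, fun v => (hC v).trans ?_⟩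
    have h2 := Hol.N0_nonneg (𝒞.incl α v)
    have h3 : C * (𝒞.incl α v).N0 ≤ (|C| + 1) * (𝒞.incl α v).N0 := by
      have := le_abs_self C
      nlinarith
    rw [Hol.supSeminorm_apply]
    linarith
  obtain ⟨K, hK0, hK⟩ := 𝒞.exists_lip_C2 (α := α)
  -- a finite net of points
  obtain ⟨δ, hδ, hδK⟩ : ∃ δ > 0, 2 * K * δ ≤ ε / (8 * C') := by
    refine ⟨ε / (8 * C') / (2 * K + 1), by positivity, ?_⟩
    rw [mul_div_assoc', div_le_iff₀ (by positivity)]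
    have : 0 < ε / (8 * C') := by positivity
    nlinarith
  have hnet : ∃ t : Finset X, ∀ x, ∃ y ∈ t, 𝒞.d x y < δ := by
    have hU : ∀ y : X, {x | 𝒞.d x y < δ} ∈ 𝓝 y := by
      intro y
      have h2 : Continuous fun x => 𝒞.d x y :=
        𝒞.continuous_d.comp (continuous_id.prodMk continuous_const)
      have h3 := h2.tendsto y
      rw [𝒞.d_self] at h3
      exact h3.eventually (gt_mem_nhds hδ)
    obtain ⟨t, ht⟩ := CompactSpace.elim_nhds_subcover _ hU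
    refine ⟨t, fun x => ?_⟩
    have hx : x ∈ ⋃ y ∈ t, {x | 𝒞.d x y < δ} := by rw [ht]; trivial
    simp only [mem_iUnion] at hx
    obtain ⟨y, hy, hxy⟩ := hx
    exact ⟨y, hy, hxy⟩
  obtain ⟨t, ht⟩ := hnet
  -- the values at the net
  let ev : 𝒞.C2 α → (t → ℝ) := fun v y => 𝒞.fn v y
  have hbdd : TotallyBounded (ev '' closedBall 0 1) := by
    have : Bornology.IsBounded (ev '' closedBall 0 1) := by
      refine (Metric.isBounded_closedBall (x := (0 : t → ℝ)) (r := 1)).subset ?_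
      rintro _ ⟨v, hv, rfl⟩
      rw [mem_closedBall_zero_iff, pi_norm_le_iff_of_nonneg zero_le_one]
      intro y
      have h2 : ‖𝒞.incl α v y‖ ≤ ‖𝒞.incl α v‖ := (𝒞.incl α v).norm_apply_le y
      rw [mem_closedBall_zero_iff] at hv
      exact h2.trans ((𝒞.norm_incl_le v).trans hv)
    exact (this.isCompact_closure.totallyBounded).subset subset_closure
  rw [Metric.totallyBounded_iff] at hbdd
  obtain ⟨s, hsf, hs⟩ := hbdd (ε / (8 * C')) (by positivity)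
  -- choose elements of the ball
  classical
  let S : Set (t → ℝ) := {p ∈ s | ∃ v ∈ closedBall (0 : 𝒞.C2 α) 1, dist (ev v) p < ε / (8 * C')}
  have hSf : S.Finite := hsf.subset fun p hp => hp.1
  have hch : ∀ p ∈ S, ∃ v ∈ closedBall (0 : 𝒞.C2 α) 1, dist (ev v) p < ε / (8 * C') :=
    fun p hp => hp.2
  choose! g hg1 hg2 using hch
  refine ⟨(fun p => 𝒞.incl α (g p)) '' S, hSf.image _, ?_⟩
  rintro _ ⟨v, hv, rfl⟩
  have hvs : ev v ∈ ⋃ y ∈ s, ball y (ε / (8 * C')) := hs (mem_image_of_mem _ hv)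
  simp only [mem_iUnion] at hvs
  obtain ⟨p, hp, hpv⟩ := hvs
  have hpS : p ∈ S := ⟨hp, v, hv, hpv⟩
  simp only [mem_iUnion]
  refine ⟨𝒞.incl α (g p), ⟨p, hpS, rfl⟩, ?_⟩
  rw [mem_ball, dist_eq_norm]
  have h2 : (𝒞.incl α : 𝒞.C2 α →ₗ[ℝ] _) v - 𝒞.incl α (g p) = 𝒞.incl α (v - g p) := by
    rw [map_sub]; rfl
  rw [h2]
  have hv1 : ‖v‖ ≤ 1 := by rwa [mem_closedBall_zero_iff] at hv
  have hg1' : ‖g p‖ ≤ 1 := by have := hg1 p hpS; rwa [mem_closedBall_zero_iff] at this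
  have hvg : ‖v - g p‖ ≤ 2 := (norm_sub_le _ _).trans (by linarith)
  have hN0 : (𝒞.incl α (v - g p)).N0 ≤ 3 * (ε / (8 * C')) := by
    refine Hol.N0_le (by positivity) fun x => ?_
    obtain ⟨y, hy, hxy⟩ := ht x
    have h3 := hK (v - g p) x y
    have h4 : ‖𝒞.fn (v - g p) y‖ ≤ 2 * (ε / (8 * C')) := by
      have h5 : dist (ev v) (ev (g p)) < ε / (8 * C') + ε / (8 * C') := by
        have h6 := hg2 p hpS
        have h7 : dist (ev v) p < ε / (8 * C') := hpv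
        calc dist (ev v) (ev (g p)) ≤ dist (ev v) p + dist p (ev (g p)) := dist_triangle _ _ _
          _ < _ := by rw [dist_comm p]; exact add_lt_add h7 h6
      have h8 : dist (ev v ⟨y, hy⟩) (ev (g p) ⟨y, hy⟩) ≤ dist (ev v) (ev (g p)) :=
        dist_le_pi_dist _ _ _
      rw [dist_eq_norm] at h8
      have h9 : 𝒞.fn (v - g p) y = ev v ⟨y, hy⟩ - ev (g p) ⟨y, hy⟩ := by simp [ev]
      rw [h9]
      linarith
    have h10 : K * ‖v - g p‖ * 𝒞.d x y ≤ 2 * K * δ := by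
      have h11 : K * ‖v - g p‖ ≤ 2 * K := by nlinarith
      have h12 := 𝒞.d_nonneg x y
      calc K * ‖v - g p‖ * 𝒞.d x y ≤ 2 * K * 𝒞.d x y := by gcongr
        _ ≤ 2 * K * δ := by gcongr
    have h13 : ‖(𝒞.incl α (v - g p)) x‖ = ‖𝒞.fn (v - g p) x‖ := rfl
    rw [h13]
    have h14 : ‖𝒞.fn (v - g p) x‖ ≤ ‖𝒞.fn (v - g p) y‖ + ‖𝒞.fn (v - g p) x - 𝒞.fn (v - g p) y‖ := by
      have : 𝒞.fn (v - g p) x = 𝒞.fn (v - g p) y + (𝒞.fn (v - g p) x - 𝒞.fn (v - g p) y) := by ring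
      conv_lhs => rw [this]
      exact norm_add_le _ _
    linarith
  have h3 := hC' (v - g p)
  have h4 : C' * (3 * (ε / (8 * C'))) = 3 * ε / 8 := by field_simp
  have h5 : C' * (𝒞.incl α (v - g p)).N0 ≤ 3 * ε / 8 := by
    rw [← h4]; gcongr
  have h6 : ε / 8 * ‖v - g p‖ ≤ ε / 4 := by nlinarith
  linarith

include h0 h1 in
/-- Existence in Hölder spaces. -/
theorem SOp.exists_holder [ConnectedSpace X] (h1' : α < 1) (g : Hol (𝒞.w α) ℝ) :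
    ∃ (v : 𝒞.C2 α) (c : ℝ), ∀ x, A.P (𝒞.fn v) x = g x - c := by
  have hcs := 𝒞.completeSpace_C2 h0
  have hbij := linear_bijective h0 h1' (A.ell 𝒞 h0 h1) 1 one_pos
  let T : 𝒞.C2 α →L[ℝ] Hol (𝒞.w α) ℝ := 𝒞.incl α - A.L 𝒞 h0 h1
  have hT : Function.Bijective T := by
    have : (fun v => (1 : ℝ) • 𝒞.incl α v - A.L 𝒞 h0 h1 v) = T := by
      funext v; rw [one_smul]; rfl
    rw [← this]; exact hbij
  let R : 𝒞.C2 α ≃L[ℝ] Hol (𝒞.w α) ℝ := ContinuousLinearEquiv.ofBijective T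
    (LinearMap.ker_eq_bot.2 hT.1) (LinearMap.range_eq_top.2 hT.2)
  have hR : ∀ v, R v = 𝒞.incl α v - A.L 𝒞 h0 h1 v := fun v => rfl
  obtain ⟨x0⟩ : Nonempty X := inferInstance
  let S : Hol (𝒞.w α) ℝ →L[ℝ] Hol (𝒞.w α) ℝ :=
    (𝒞.incl α).comp (R.symm : Hol (𝒞.w α) ℝ →L[ℝ] 𝒞.C2 α)
  let F0 : ℝ →L[ℝ] Hol (𝒞.w α) ℝ := ContinuousLinearMap.smulRight (ContinuousLinearMap.id ℝ ℝ)
      (1 : Hol (𝒞.w α) ℝ)
  let F : Hol (𝒞.w α) ℝ →L[ℝ] Hol (𝒞.w α) ℝ := F0.comp (Hol.evalL (w := 𝒞.w α) (V := ℝ) x0)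
  have hS : IsCompactOperator S := (isCompactOperator_incl 𝒞 h0 h1').comp_clm _
  have hF1 : IsCompactOperator (Hol.evalL (w := 𝒞.w α) (V := ℝ) x0) :=
    isCompactOperator_of_locallyCompactSpace_dom _
  have hF : IsCompactOperator F := hF1.clm_comp F0
  have hK : IsCompactOperator (S - F) := hS.sub hF
  have hFx : ∀ h x, F h x = h x0 := by
    intro h x
    show (h x0 • (1 : Hol (𝒞.w α) ℝ)) x = h x0
    simp
  rcases hK.hasEigenvalue_or_mem_resolventSet (one_ne_zero) with h | h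
  · exfalso
    obtain ⟨h, hh⟩ := h.exists_hasEigenvector
    have hh1 : (S - F) h = h := by
      have := hh.apply_eq_smul
      rw [one_smul] at this
      exact this
    have hh0 : h ≠ 0 := hh.2
    apply hh0
    -- `v = R⁻¹ h`
    have hv := hR (R.symm h)
    rw [R.apply_symm_apply] at hv
    have e1 : ∀ x, A.P (𝒞.fn (R.symm h)) x = h x0 := by
      intro x
      have e2 := congrArg (fun k : Hol (𝒞.w α) ℝ => k x) hv
      have e3 := congrArg (fun k : Hol (𝒞.w α) ℝ => k x) hh1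
      simp only [Hol.sub_apply, Cov.incl_apply, A.L_apply] at e2
      have e4 : (S - F) h x = 𝒞.fn (R.symm h) x - h x0 := by
        rw [← hFx h x]; rfl
      rw [e4] at e3
      linarith
    have hck := 𝒞.fn_ck (R.symm h)
    have hcst : ∀ x y, 𝒞.fn (R.symm h) x = 𝒞.fn (R.symm h) y := by
      intro x y
      rcases le_total 0 (h x0) with hs | hs
      · exact A.const_of_nonneg hck (fun x => by rw [e1]; exact hs) x y
      · have := A.const_of_nonneg hck.neg (fun x => by rw [A.P_neg hck, e1]; linarith) x y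
        linarith
    have e5 : ∀ x, A.P (𝒞.fn (R.symm h)) x = 0 := by
      intro x
      have : 𝒞.fn (R.symm h) = fun _ => 𝒞.fn (R.symm h) x0 := by
        funext y; exact hcst y x0
      rw [this]; exact A.P_const _ x
    have e6 : h x0 = 0 := by rw [← e1 x0]; exact e5 x0
    ext x
    have e2 := congrArg (fun k : Hol (𝒞.w α) ℝ => k x) hv
    have e2' := congrArg (fun k : Hol (𝒞.w α) ℝ => k x0) hv
    simp only [Hol.sub_apply, Cov.incl_apply, A.L_apply, e5, sub_zero] at e2 e2'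
    rw [e2, hcst x x0, ← e2', e6]; rfl
  · rw [spectrum.mem_resolventSet_iff, ContinuousLinearMap.isUnit_iff_bijective] at h
    obtain ⟨h, hh⟩ := h.2 (-g)
    refine ⟨R.symm h, -(h x0), fun x => ?_⟩
    have hv := hR (R.symm h)
    rw [R.apply_symm_apply] at hv
    have e2 := congrArg (fun k : Hol (𝒞.w α) ℝ => k x) hv
    have e3 := congrArg (fun k : Hol (𝒞.w α) ℝ => k x) hh
    simp only [Hol.sub_apply, Cov.incl_apply, A.L_apply] at e2
    have e4 : ((algebraMap ℝ (Hol (𝒞.w α) ℝ →L[ℝ] Hol (𝒞.w α) ℝ)) 1 - (S - F)) h x =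
        h x - (𝒞.fn (R.symm h) x - h x0) := by
      rw [map_one, ← hFx h x]; rfl
    rw [e4] at e3
    have e5 : h x - (𝒞.fn (R.symm h) x - h x0) = - g x := e3
    linarith

end holder

section smooth

variable {E : Type} [NormedAddCommGroup E] [NormedSpace ℝ E] {X : Type*} [TopologicalSpace X]
  [ChartedSpace E X] [FiniteDimensional ℝ E] (A : SOp E X)
  [CompactSpace X] [T2Space X] [RSm E X]

/-- Regularity: a `C^{2,α}` solution of `P u = g`, `g` smooth, is smooth. -/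
theorem SOp.regular (𝒞 : Cov E X) {α : ℝ} (h0 : 0 < α) (h1 : α < 1) (v : 𝒞.C2 α) {g : X → ℝ}
    (hg : CkFn E ∞ g) (h : ∀ x, A.P (𝒞.fn v) x = g x) : CkFn E ∞ (𝒞.fn v) := by
  refine ckFn_of_local le_rfl fun x => ?_
  obtain ⟨i, hx, hb⟩ := 𝒞.cover x
  refine ⟨𝒞.e i, 𝒞.mem i, hx, ?_⟩
  have hr := 𝒞.r_pos i
  have hsub : ball (𝒞.c i) (2 * 𝒞.r i) ⊆ (𝒞.e i).target := 𝒞.sub' (by linarith)
  set w : E → ℝ := fun y => 𝒞.fn v ((𝒞.e i).symm y) with hw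
  have hw2 : ∀ y ∈ ball (𝒞.c i) (2 * 𝒞.r i), ContDiffAt ℝ 2 w y := fun y hy =>
    (𝒞.fn_ck v).at_target (𝒞.mem i) (hsub hy)
  obtain ⟨C, hC0, hC⟩ := 𝒞.symm_lip (𝒞.mem i) (isCompact_closedBall (𝒞.c i) (2 * 𝒞.r i))
    ((closedBall_subset_closedBall (by linarith)).trans (𝒞.sub i))
  have hD2 : ∀ y ∈ ball (𝒞.c i) (2 * 𝒞.r i), ((𝒞.J α i v) ((𝒞.e i).symm y)).2.2 =
      fderiv ℝ (fderiv ℝ w) y := by
    intro y hy
    rw [𝒞.J_apply, 𝒞.Jf_symm hy]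
    rfl
  let Φ : E × ℝ × BL E → ℝ := fun p => A.a (𝒞.e i) p.1 p.2.2 - g ((𝒞.e i).symm p.1)
  have hΦ : ∀ p ∈ (ball (𝒞.c i) (2 * 𝒞.r i)) ×ˢ (univ : Set (ℝ × BL E)), ContDiffAt ℝ ∞ Φ p := by
    intro p hp
    have h2 : ContDiffAt ℝ ∞ (A.a (𝒞.e i)) p.1 := A.smooth _ (𝒞.mem i) _ (hsub hp.1)
    have h3 : ContDiffAt ℝ ∞ (fun p : E × ℝ × BL E => A.a (𝒞.e i) p.1 p.2.2) p :=
      (h2.comp p contDiffAt_fst).clm_apply
        ((contDiff_snd.contDiffAt (x := p.2)).comp p contDiffAt_snd)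
    exact h3.sub ((hg.at_target (𝒞.mem i) (hsub hp.1)).comp p contDiffAt_fst)
  refine R.reg E h0 h1 (ball (𝒞.c i) (2 * 𝒞.r i)) isOpen_ball w hw2 ?_
    ((ball (𝒞.c i) (2 * 𝒞.r i)) ×ˢ univ) (isOpen_ball.prod isOpen_univ) Φ hΦ
    (fun y hy => ⟨hy, mem_univ _⟩) (fun y hy => ?_) (fun y hy l hl => ?_) _ (𝒞.ball_sub hb)
  · intro y hy
    obtain ⟨s, hs, hsb⟩ := Metric.isOpen_iff.1 isOpen_ball y hy
    refine ⟨s, hs, (𝒞.J α i v).N1 * C ^ α, fun z hz z' hz' => ?_⟩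
    rw [← hD2 z (hsb hz), ← hD2 z' (hsb hz')]
    have h2 : ‖((𝒞.J α i v) ((𝒞.e i).symm z)).2.2 - ((𝒞.J α i v) ((𝒞.e i).symm z')).2.2‖ ≤
        ‖(𝒞.J α i v) ((𝒞.e i).symm z) - (𝒞.J α i v) ((𝒞.e i).symm z')‖ :=
      (norm_snd_le ((𝒞.J α i v) ((𝒞.e i).symm z) - (𝒞.J α i v) ((𝒞.e i).symm z')).2).trans
        (norm_snd_le _)
    refine h2.trans (((𝒞.J α i v).le_N1 _ _).trans ?_)
    rw [𝒞.coe_w, mul_assoc]
    refine mul_le_mul_of_nonneg_left ?_ (Hol.N1_nonneg _)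
    rw [← Real.mul_rpow hC0 (norm_nonneg _)]
    exact Real.rpow_le_rpow (𝒞.d_nonneg _ _)
      (hC z (ball_subset_closedBall (hsb hz)) z' (ball_subset_closedBall (hsb hz'))) h0.le
  · have h2 := h ((𝒞.e i).symm y)
    rw [A.eq _ (𝒞.fn_ck v) _ (𝒞.mem i) _ ((𝒞.e i).map_target (hsub hy)),
      (𝒞.e i).right_inv (hsub hy)] at h2
    show A.a (𝒞.e i) y (fderiv ℝ (fderiv ℝ w) y) - g ((𝒞.e i).symm y) = 0
    rw [← h2, sub_self]
  · have h2 : HasFDerivAt Φ (fderiv ℝ Φ (y, w y, fderiv ℝ (fderiv ℝ w) y))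
        (y, w y, fderiv ℝ (fderiv ℝ w) y) :=
      ((hΦ (y, w y, fderiv ℝ (fderiv ℝ w) y) ⟨hy, mem_univ _⟩).differentiableAt
        (by simp)).hasFDerivAt
    -- differentiate along the line in the third variable
    have h3 : HasDerivAt (fun t : ℝ => Φ (y, w y, fderiv ℝ (fderiv ℝ w) y + t • l.smulRight l))
        (fderiv ℝ Φ (y, w y, fderiv ℝ (fderiv ℝ w) y) (0, 0, l.smulRight l)) 0 := by
      have h4 : HasDerivAt (fun t : ℝ => ((y, w y, fderiv ℝ (fderiv ℝ w) y + t • l.smulRight l) :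
          E × ℝ × BL E)) (0, 0, l.smulRight l) 0 := by
        have h5 : HasDerivAt (fun t : ℝ => fderiv ℝ (fderiv ℝ w) y + t • l.smulRight l)
            (l.smulRight l) 0 := by
          have := ((hasDerivAt_id (0 : ℝ)).smul_const (l.smulRight l)).const_add
            (fderiv ℝ (fderiv ℝ w) y)
          simpa using this
        exact (hasDerivAt_const _ _).prodMk ((hasDerivAt_const _ _).prodMk h5)
      have h2' : HasFDerivAt Φ (fderiv ℝ Φ (y, w y, fderiv ℝ (fderiv ℝ w) y))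
          ((fun t : ℝ => ((y, w y, fderiv ℝ (fderiv ℝ w) y + t • l.smulRight l) :
          E × ℝ × BL E)) 0) := by simpa using h2
      exact h2'.comp_hasDerivAt (0 : ℝ) h4
    have h6 : HasDerivAt (fun t : ℝ => Φ (y, w y, fderiv ℝ (fderiv ℝ w) y + t • l.smulRight l))
        (A.a (𝒞.e i) y (l.smulRight l)) 0 := by
      have h7 : (fun t : ℝ => Φ (y, w y, fderiv ℝ (fderiv ℝ w) y + t • l.smulRight l)) =
          fun t => Φ (y, w y, fderiv ℝ (fderiv ℝ w) y) + t * A.a (𝒞.e i) y (l.smulRight l) := by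
        funext t
        simp only [Φ, map_add, map_smul, smul_eq_mul]
        ring
      rw [h7]
      have := ((hasDerivAt_id (0 : ℝ)).mul_const (A.a (𝒞.e i) y (l.smulRight l))).const_add
        (Φ (y, w y, fderiv ℝ (fderiv ℝ w) y))
      simpa using this
    rw [h3.unique h6]
    exact A.pos _ (𝒞.mem i) y (hsub hy) l hl

/-- **Solvability.** On a compact connected manifold, for every smooth `g` there are a constant `c`
and a smooth `u` with `P u = g - c`. -/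
theorem SOp.exists_solve [ConnectedSpace X] {g : X → ℝ} (hg : CkFn E ∞ g) :
    ∃ (u : X → ℝ) (c : ℝ), CkFn E ∞ u ∧ ∀ x, A.P u x = g x - c := by
  obtain ⟨𝒞⟩ := Cov.nonempty E X
  have h0 : (0 : ℝ) < 1 / 2 := by norm_num
  have h1 : (1 / 2 : ℝ) < 1 := by norm_num
  obtain ⟨v, c, hv⟩ := A.exists_holder 𝒞 h0 h1.le h1
    (𝒞.ofCk h0 h1.le g (hg.of_le (by exact_mod_cast le_top)))
  refine ⟨𝒞.fn v, c, ?_, hv⟩
  exact A.regular 𝒞 h0 h1 v (hg.sub (ckFn_const c)) hv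

end smooth

end Vale.Agent.P267.H661
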