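import Vale.Agent.P267.H661.Gf
import Vale.Agent.P267.H877.Trans

/-! The function `f` on the infinite cyclic covering (package GAUD-XT of P267). -/

open scoped Manifold ContDiff ComplexOrder Topology NNReal ComplexConjugate
open Filter Set Metric

set_option maxSynthPendingDepth 3
set_option linter.unusedSectionVars false

noncomputable section

namespace Vale.Agent.P267.H661

open Vale.Agent.P267.FL Vale.Agent.P272.K.LIN Vale.Agent.P267.XT

section metric
variable {Y X : Type*} [TopologicalSpace Y] [ChartedSpace C2 Y] [TopologicalSpace X]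
  [ChartedSpace C2 X] [IsManifold 𝓘(ℂ, C2) ω X] [IsManifold 𝓘(ℂ, C2) ω Y] {g : Y → X}

/-- regularity of `(1,1)`-forms may be tested in the preferred charts -/
theorem reg11_of_chartAt {n : WithTop ℕ∞} {c : X → Matrix (Fin 2) (Fin 2) ℂ}
    (h : ∀ x i j, ContDiffAt ℝ n (fun z => loc11 (chartAt C2 x) c z i j) (chartAt C2 x x)) :
    Reg11 n c := by
  intro e he i j z hz
  refine ContDiffAt.contDiffWithinAt ?_
  have hx : Vale.Agent.P272.K.At e (e.symm z) := ⟨he, e.map_target hz⟩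
  set x := e.symm z with hxdef
  have hex : e x = z := e.right_inv hz
  have hc := Vale.Agent.P267.H661.at_chart x
  set e' := chartAt C2 x with he'
  have h1 : (fun z => loc11 e c z i j) =ᶠ[𝓝 z] fun z => ∑ p, ∑ q,
      (Vale.Agent.P272.K.jacM e e' (e.symm z) p i *
        conj (Vale.Agent.P272.K.jacM e e' (e.symm z) q j)) * loc11 e' c (e' (e.symm z)) p q := by
    have := hx.nhds_at hc
    rw [hex] at this
    filter_upwards [this] with w hw
    have h2 := isForm_loc11 c e e' (e.symm w) hw.2.1 hw.2.2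
    rw [e.right_inv hw.1] at h2
    simp only at h2
    rw [h2]
    simp only [Matrix.mul_apply, Fin.sum_univ_two, Matrix.transpose_apply, Matrix.map_apply]
    ring
  refine ContDiffAt.congr_of_eventuallyEq ?_ h1
  have hT : ContDiffAt ℝ n (fun z => e' (e.symm z)) z := by
    have := (Vale.Agent.P272.K.transition hx hc).restrict_scalars ℝ
    rw [hex] at this
    exact this.of_le le_top
  have hJ : ∀ p i, ContDiffAt ℝ n (fun z => Vale.Agent.P272.K.jacM e e' (e.symm z) p i) z := by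
    intro p i
    have := (Vale.Agent.P272.K.jacM_holo hx hc p i).restrict_scalars ℝ
    rw [hex] at this
    exact this.of_le le_top
  refine ContDiffAt.sum fun p _ => ContDiffAt.sum fun q _ => ?_
  refine ((hJ p i).mul ?_).mul ?_
  · exact Complex.conjCLE.toContinuousLinearMap.contDiff.contDiffAt.comp z (hJ q j)
  · exact ContDiffAt.comp z (g := fun w => loc11 e' c w p q) (h x p q) hT

theorem reg11_comp (hg : ChartMap g) {n : WithTop ℕ∞} {c : X → Matrix (Fin 2) (Fin 2) ℂ}
    (hc : Reg11 n c) : Reg11 n fun y => c (g y) := by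
  refine reg11_of_chartAt fun y i j => ?_
  have h1 := (hc (chartAt C2 (g y)) (chart_mem_atlas _ _) i j).contDiffAt
    ((chartAt C2 (g y)).open_target.mem_nhds (mem_chart_target C2 (g y)))
  rw [hg.apply_eq] at h1
  refine h1.congr_of_eventuallyEq ?_
  filter_upwards [hg.loc11_germ c y] with z hz
  rw [hz]

theorem isHerm_comp (hg : ChartMap g) {h : X → Matrix (Fin 2) (Fin 2) ℂ} (hh : IsHerm h) :
    IsHerm fun y => h (g y) where
  posDef y := hh.posDef (g y)
  smooth := reg11_comp hg hh.smooth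

theorem ck_comp (hg : ChartMap g) {u : X → ℝ} (hu : CkFn C2 ∞ u) : CkFn C2 ∞ fun y => u (g y) := by
  have h1 : Reg0 ∞ 0 (cx u) := reg0_iff.2 (cx_ck hu)
  have h2 := hg.reg0_comp h1
  have h3 := reF_ck (reg0_iff.1 h2)
  exact h3

theorem ck_comp_iff (hg : ChartMap g) (hs : Function.Surjective g) {u : X → ℝ} :
    CkFn C2 ∞ (fun y => u (g y)) ↔ CkFn C2 ∞ u := by
  refine ⟨fun h => ?_, ck_comp hg⟩
  have h1 : Reg0 ∞ 0 (fun y => cx u (g y)) := reg0_iff.2 (cx_ck h)
  have h2 := (hg.reg0_comp_iff hs).1 h1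
  exact reF_ck (reg0_iff.1 h2)

/-- `P (u ∘ g) = (P u) ∘ g` -/
theorem gop_comp (hg : ChartMap g) {h : X → Matrix (Fin 2) (Fin 2) ℂ} (hh : IsHerm h) {u : X → ℝ}
    (hu : CkFn C2 ∞ u) (y : Y) :
    (gop (isHerm_comp hg hh)).P (fun y => u (g y)) y = (gop hh).P u (g y) := by
  rw [gop_P _ (ckFn_two (ck_comp hg hu)), gop_P _ (ckFn_two hu)]
  simp only [trh]
  have : ddb (cx fun y => u (g y)) y = ddb (cx u) (g y) := hg.ddb_comp (cx u) y
  rw [this]

end metric

/-- The data of an infinite cyclic covering `q : M → X` with a smooth function `F` satisfying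
`F ∘ γ = F + 1`. -/
structure QData {M X : Type} [TopologicalSpace M] [ChartedSpace C2 M] [TopologicalSpace X]
    [ChartedSpace C2 X] (q : M → X) where
  cm : ChartMap q
  surj : Function.Surjective q
  γ : M ≃ₜ M
  q_γ : ∀ x, q (γ x) = q x
  fib : ∀ x y, q x = q y → ∃ k : ℤ, y = (γ ^ k) x
  F : M → ℝ
  smooth : Reg0 ∞ 0 fun x => (F x : ℂ)
  F_γ : ∀ x, F (γ x) = F x + 1
  proper : ∀ a b, IsCompact (F ⁻¹' Icc a b)

namespace QData

variable {M X : Type} [TopologicalSpace M] [ChartedSpace C2 M] [TopologicalSpace X]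
    [ChartedSpace C2 X] {q : M → X} (Q : QData q)

theorem chartMap_γ : ChartMap Q.γ := by
  refine ⟨Q.γ.continuous, fun y => ?_⟩
  have h1 := Q.cm.germ (Q.γ y)
  have h2 := (Q.γ.continuous.continuousAt (x := y)).eventually h1
  filter_upwards [h2, Q.cm.germ y] with z hz hz2
  rw [← hz, ← hz2, Q.q_γ, Q.q_γ]

theorem invariant {β : Type*} {T : M → β} (h : ∀ x, T (Q.γ x) = T x) {x y : M} (hxy : q x = q y) :
    T x = T y := by
  obtain ⟨k, rfl⟩ := Q.fib x y hxy
  have key : ∀ k : ℤ, ∀ x, T ((Q.γ ^ k) x) = T x := by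
    intro k
    induction k with
    | zero => intro x; rfl
    | succ n ih =>
      intro x
      rw [zpow_add_one, Homeomorph.mul_apply, ih, h]
    | pred n ih =>
      intro x
      rw [zpow_sub_one, Homeomorph.mul_apply, ih]
      have := h ((Q.γ⁻¹ : M ≃ₜ M) x)
      rw [← this]
      congr 1
      exact Q.γ.apply_symm_apply x
  exact (key k x).symm

variable [IsManifold 𝓘(ℂ, C2) ω X] [IsManifold 𝓘(ℂ, C2) ω M]

theorem ck_F : CkFn C2 ∞ Q.F := reF_ck (reg0_iff.1 Q.smooth)

variable {h : X → Matrix (Fin 2) (Fin 2) ℂ} (hh : IsHerm h)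

/-- the function `P F` descends -/
theorem exists_PF : ∃ g : X → ℝ, CkFn C2 ∞ g ∧
    ∀ y, (gop (isHerm_comp Q.cm hh)).P Q.F y = g (q y) := by
  set A := gop (isHerm_comp Q.cm hh)
  have hinv : ∀ x, A.P Q.F (Q.γ x) = A.P Q.F x := by
    intro x
    have h1 : (fun y => Q.F (Q.γ y)) = fun y => Q.F y + 1 := funext Q.F_γ
    have h2 : CkFn C2 ∞ (fun y => Q.F (Q.γ y)) := ck_comp Q.chartMap_γ Q.ck_F
    have h3 : A.P (fun y => Q.F (Q.γ y)) x = A.P Q.F x := by
      rw [h1, A.P_add (ckFn_two Q.ck_F) (ckFn_const 1), A.P_const, add_zero]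
    rw [← h3, gop_P _ (ckFn_two Q.ck_F), gop_P _ (ckFn_two h2)]
    simp only [trh]
    have h4 : ddb (cx fun y => Q.F (Q.γ y)) x = ddb (cx Q.F) (Q.γ x) :=
      Q.chartMap_γ.ddb_comp (cx Q.F) x
    rw [h4, Q.q_γ]
  have hg : ∀ y, A.P Q.F y = A.P Q.F (Function.surjInv Q.surj (q y)) := fun y =>
    Q.invariant hinv (Function.surjInv_eq Q.surj (q y)).symm
  refine ⟨fun x => A.P Q.F (Function.surjInv Q.surj x), ?_, hg⟩
  rw [← ck_comp_iff Q.cm Q.surj]
  have h5 : (fun y => A.P Q.F (Function.surjInv Q.surj (q y))) = A.P Q.F :=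
    funext fun y => (hg y).symm
  rw [h5]
  exact A.smooth_P Q.ck_F

include hh in
/-- **The function `f = F - u ∘ q` with `P f` constant.** -/
theorem exists_const [CompactSpace X] [T2Space X] [ConnectedSpace X] :
    ∃ (u : X → ℝ) (c : ℝ), CkFn C2 ∞ u ∧
      ∀ y, trh (fun y => h (q y)) (ddb (cx fun y => Q.F y - u (q y))) y = (c : ℂ) := by
  obtain ⟨g, hg, hgF⟩ := Q.exists_PF hh
  obtain ⟨u, hu, hu'⟩ := (gop hh).c_spec hg
  refine ⟨u, (gop hh).c g, hu, fun y => ?_⟩
  have h1 : CkFn C2 ∞ fun y => u (q y) := ck_comp Q.cm hu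
  rw [trh_cx (isHerm_comp Q.cm hh) (ckFn_two (Q.ck_F.sub h1)),
    SOp.P_sub _ (ckFn_two Q.ck_F) (ckFn_two h1), hgF, gop_comp Q.cm hh hu, hu']
  push_cast
  ring

/-- the covering data with reversed orientation -/
def neg : QData q where
  cm := Q.cm
  surj := Q.surj
  γ := Q.γ.symm
  q_γ x := by
    have := Q.q_γ (Q.γ.symm x)
    rw [Q.γ.apply_symm_apply] at this
    exact this.symm
  fib x y hxy := by
    obtain ⟨k, hk⟩ := Q.fib x y hxy
    refine ⟨-k, ?_⟩
    have : (Q.γ.symm : M ≃ₜ M) = Q.γ⁻¹ := rfl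
    rw [this, inv_zpow', neg_neg]
    exact hk
  F x := - Q.F x
  smooth := by
    have := reg0_iff.2 (cx_ck (Q.ck_F.neg))
    exact this
  F_γ x := by
    have := Q.F_γ (Q.γ.symm x)
    rw [Q.γ.apply_symm_apply] at this
    linarith
  proper a b := by
    have : (fun x => - Q.F x) ⁻¹' Icc a b = Q.F ⁻¹' Icc (-b) (-a) := by
      ext x
      simp only [mem_preimage, mem_Icc]
      constructor <;> rintro ⟨h1, h2⟩ <;> constructor <;> linarith
    rw [this]
    exact Q.proper _ _

/-- changing `F` by a function on `X` -/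
def sub [CompactSpace X] {u : X → ℝ} (hu : CkFn C2 ∞ u) : QData q where
  cm := Q.cm
  surj := Q.surj
  γ := Q.γ
  q_γ := Q.q_γ
  fib := Q.fib
  F x := Q.F x - u (q x)
  smooth := reg0_iff.2 (cx_ck (Q.ck_F.sub (ck_comp Q.cm hu)))
  F_γ x := by rw [Q.F_γ, Q.q_γ]; ring
  proper a b := by
    have hc : Continuous u := ckFn_continuous hu
    obtain ⟨B, hB⟩ : ∃ B, ∀ x, |u x| ≤ B := by
      obtain ⟨B, hB⟩ := isCompact_univ.exists_bound_of_continuousOn hc.continuousOn
      exact ⟨B, fun x => hB x (mem_univ x)⟩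
    have hcont : Continuous fun x => Q.F x - u (q x) :=
      (ckFn_continuous Q.ck_F).sub (hc.comp Q.cm.cont)
    refine (Q.proper (a - B) (b + B)).of_isClosed_subset (isClosed_Icc.preimage hcont) ?_
    intro x hx
    have h1 := abs_le.1 (hB (q x))
    simp only [mem_preimage, mem_Icc] at hx ⊢
    constructor <;> linarith [hx.1, hx.2, h1.1, h1.2]

/-- the data of `H877/Setup.lean` -/
def toXT {c : ℝ} (hc : 0 < c)
    (hP : ∀ y, trh (fun y => h (q y)) (ddb (cx Q.F)) y = (c : ℂ)) : XTData M where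
  γ := Q.γ
  chart_γ := Q.chartMap_γ.germ
  f := Q.F
  f_smooth := Q.smooth
  f_γ := Q.F_γ
  f_proper := Q.proper
  h y := h (q y)
  herm := isHerm_comp Q.cm hh
  h_γ y := by rw [Q.q_γ]
  c := c
  c_pos := hc
  lap_f := hP

/-- what `XTData` inherits from the covering -/
structure IsXT (Q : QData q) (h : X → Matrix (Fin 2) (Fin 2) ℂ) (D : XTData M) : Prop where
  h_eq : ∀ y, D.h y = h (q y)
  γ_eq : D.γ = Q.γ ∨ D.γ = Q.γ.symm
  q_sh : ∀ (k : ℤ) x, q (D.sh k x) = q x
  fib : ∀ x y, q x = q y → ∃ k : ℤ, y = D.sh k x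

theorem q_sh (k : ℤ) (x : M) : q ((Q.γ ^ k) x) = q x := by
  have key : ∀ k : ℤ, ∀ x, q ((Q.γ ^ k) x) = q x := by
    intro k
    induction k with
    | zero => intro x; rfl
    | succ n ih =>
      intro x
      rw [zpow_add_one, Homeomorph.mul_apply, ih, Q.q_γ]
    | pred n ih =>
      intro x
      rw [zpow_sub_one, Homeomorph.mul_apply, ih]
      have := Q.q_γ ((Q.γ⁻¹ : M ≃ₜ M) x)
      rw [← this]
      congr 1
      exact Q.γ.apply_symm_apply x
  exact key k x

include hh in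
/-- **XTData from the covering**, provided the constant is not zero. -/
theorem exists_xt [CompactSpace X] {u : X → ℝ} {c : ℝ} (hu : CkFn C2 ∞ u) (hc : c ≠ 0)
    (hP : ∀ y, trh (fun y => h (q y)) (ddb (cx fun y => Q.F y - u (q y))) y = (c : ℂ)) :
    ∃ D : XTData M, IsXT Q h D := by
  rcases lt_or_gt_of_ne hc with hneg | hpos
  · set Q' := (Q.sub hu).neg with hQ'
    have hF : (cx Q'.F) = fun y => (-1 : ℂ) * cx (fun y => Q.F y - u (q y)) y := by
      funext y
      show ((-(Q.F y - u (q y)) : ℝ) : ℂ) = -1 * ((Q.F y - u (q y) : ℝ) : ℂ)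
      push_cast
      ring
    have hck : CkFn C2 ∞ fun y => Q.F y - u (q y) := Q.ck_F.sub (ck_comp Q.cm hu)
    refine ⟨Q'.toXT hh (neg_pos.2 hneg) fun y => ?_, ?_⟩
    · rw [hF, trh, ddb_smul (cx_ck (ckFn_two hck)), Matrix.mul_smul, Matrix.trace_smul]
      have := hP y
      rw [trh] at this
      rw [this]
      push_cast
      simp
    · refine ⟨fun y => rfl, Or.inr rfl, fun k x => Q'.q_sh k x, fun x y hxy => Q'.fib x y hxy⟩
  · exact ⟨(Q.sub hu).toXT hh hpos hP, fun y => rfl, Or.inl rfl, fun k x => (Q.sub hu).q_sh k x,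
      fun x y hxy => Q.fib x y hxy⟩

end QData

end Vale.Agent.P267.H661
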